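import Vale.Agent.P330.Comp.Pur

/-!
P330, T9: replicas of the gadget of a line system with a majority vote.
-/

namespace Vale.Agent.P330.Comp

open Vale.Agent.Lib.PolyTime hiding C P
open Vale.Agent.Lib.Dep
open Glue

open Classical in
/-- the majority of the rounded values -/
noncomputable def maj (d : ℕ) (y : Fin (2 * d + 1) → ℝ) : Bool :=
  decide (d < (Finset.univ.filter fun f => 1 / 2 < y f).card)

theorem maj_eq {d : ℕ} {y : Fin (2 * d + 1) → ℝ} {b : Bool} (bad : Fin d → ℕ)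
    (h : ∀ f : Fin (2 * d + 1), (∀ j, f.1 ≠ bad j) → decide (1 / 2 < y f) = b) : maj d y = b := by
  classical
  have h1 : (Finset.univ.filter fun f : Fin (2 * d + 1) => decide (1 / 2 < y f) ≠ b).card ≤ d := by
    have h2 : (Finset.univ.image bad).card ≤ d := Finset.card_image_le.trans (by simp)
    refine le_trans (Finset.card_le_card_of_injOn Fin.val (fun f hf => ?_)
      Fin.val_injective.injOn) h2
    by_contra hn
    refine (Finset.mem_filter.1 (Finset.mem_coe.1 hf)).2 (h f fun j hj => hn ?_)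
    exact Finset.mem_coe.2 (Finset.mem_image.2 ⟨j, Finset.mem_univ _, hj.symm⟩)
  have h2 := Finset.card_filter_add_card_filter_not (s := Finset.univ)
    fun f : Fin (2 * d + 1) => 1 / 2 < y f
  rw [Finset.card_univ, Fintype.card_fin] at h2
  cases b
  · simp only [ne_eq, decide_eq_false_iff_not, not_not] at h1
    exact decide_eq_false (by omega)
  · simp only [ne_eq, decide_eq_true_eq] at h1
    exact decide_eq_true (by omega)

/-- the module: replicas and majority -/
noncomputable def appMod {C R J : Type} (d : ℕ) (ro : R) (m : Mod C R J) :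
    Mod C (Option (Fin (2 * d + 1) × R)) (J × Fin (2 * d + 1)) :=
  fun c r => match r with
    | none => Gate.mk' (fun f => (c, Sum.inl (some (f, ro)))) (maj d)
    | some (f, r) => ren (fun r => some (f, r)) (fun j => Sum.inr (j, f)) m c r

/-- The statement on the replicated gadget. -/
def AppStmt : Prop :=
  ∀ (A : CT) (c k : ℕ) (K Δ θ h : ℝ), 0 < Δ → 0 < θ → 0 < h → ∀ (d : ℕ) (ε : ℝ) (G' : CT), 0 < ε →
    ∃ (g : ℕ) (η : ℝ) (R : CT) (ro : R.T), 0 < η ∧
      ∀ (α : Type) [Enc α] (P S : TF α) (L : ∀ a, LRLS c k (P.T a) (S.T a) A.T), LRLS.IsPT L →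
        ∃ m : ∀ a, Mod (Cell (P.T a) A.T (S.T a) (Fin (g + 1) × G'.T)) R.T
            (Fin c × Fin (2 * d + 1)), ModPT m ∧
          ∀ a, (L a).Bal K → ∀ x, Unit01 x → (m a).Ok η x →
            ∀ (U : P.T a → A.T) (bad : Fin d → ℕ),
              (∀ f : Fin (2 * d + 1), (∀ j, f.1 ≠ bad j) → ∃ inp, (L a).Good inp Δ θ h ∧
                (L a).Start inp ∧ (L a).Evals inp U ∧
                ∀ j, tvd (ext x (j, f)) (encb (S.T a) (Fin (g + 1) × G'.T) (inp j)) ≤ η) →
              pd (reg x ro) (encb (S.T a) (Fin (g + 1) × G'.T) U) ≤ ε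

theorem appStmt (hG : GadgetStmt) : AppStmt := by
  intro A c k K Δ θ h hΔ hθ hh d ε G' hε
  obtain ⟨ho, ho0, ho1⟩ : ∃ ho : ℝ, 0 < ho ∧ (2 * d + 1) * ho ≤ ε / 2 :=
    ⟨ε / 2 / (2 * d + 1), by positivity, by rw [mul_div_cancel₀ _ (by positivity)]⟩
  obtain ⟨g, ηG, R, rX, rY, rO, hηG, hG⟩ := hG A c k K Δ θ h hΔ hθ hh 1 ho G' one_pos ho0
  obtain ⟨η, η0, η1, η2, η3⟩ : ∃ η : ℝ, 0 < η ∧ η ≤ ε / 2 ∧ η ≤ ηG ∧ η < 1 / 10 :=
    ⟨min (ε / 2) (min ηG (1 / 20)), by positivity, min_le_left _ _,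
      (min_le_right _ _).trans (min_le_left _ _),
      ((min_le_right _ _).trans (min_le_right _ _)).trans_lt (by norm_num)⟩
  refine ⟨g, η, ⟨Option (Fin (2 * d + 1) × R.T)⟩, none, η0, ?_⟩
  intro α _ P S L hL
  obtain ⟨m, hm, hG⟩ := hG α P S L hL
  refine ⟨fun a => appMod d rO (m a), ?_, ?_⟩
  · rintro (_ | ⟨f, r⟩)
    · exact gatePT_mk' (D := Fin (2 * d + 1)) (F := fun _ => maj d)
        (fun _ => DPT.pair DPT.ssnd (DPT.const _)) (finSel_const _)
    · exact gatePT_ren _ _ hm r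
  intro a hbal x hx hok U bad hb
  have h1 : ∀ f : Fin (2 * d + 1), frac (fun c => (∀ j, f.1 ≠ bad j) ∧
      x (c, Sum.inl (some (f, rO))) ≠ bv (encb (S.T a) (Fin (g + 1) × G'.T) U c)) ≤ ho := by
    intro f
    by_cases hf : ∀ j, f.1 ≠ bad j
    · obtain ⟨inp, h1, h2, h3, h4⟩ := hb f hf
      refine (frac_mono fun c hc => hc.2).trans ?_
      rcases hG a inp hbal h1 h2 _ (unit01_pull hx)
        (ok_pull (ι := fun r => some (f, r)) (κ := fun j => Sum.inr (j, f)) (fun _ _ => rfl) η2 hok)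
        (fun j => (h4 j).trans η2) with ⟨W, hW, hn, -, h5⟩ | ⟨W, hW, hne, hn, -⟩
      · exact h5 U (h3.2 W hW hn)
      · exact absurd (h3.1 W hW hne) hn
    · exact (frac_mono fun c hc => hf hc.1).trans (frac_false.le.trans ho0.le)
  refine (frac_le_add fun c h2 h3 => ?_).trans
    ((add_le_add (hok none) (frac_exists h1)).trans ?_)
  · refine not_not.2 (sat_mk' (not_not.1 h2) _ fun y hy => maj_eq bad fun f hf => ?_)
    exact round_eq' η3 (fun h4 => h3 ⟨f, hf, h4⟩) (hy f)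
  · rw [Fintype.card_fin]
    push_cast
    linarith

end Vale.Agent.P330.Comp
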