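import Vale.Agent.P330.Comp.Lev

/-!
P330, T9: the chain of levels gives correction, successor, predecessor and test of the composed
system.
-/

namespace Vale.Agent.P330.Comp

open Vale.Agent.Lib.PolyTime hiding C P
open Vale.Agent.Lib.Dep
open Glue

/-- the concatenated code -/
def cat {Q C T : Type} (code : T → C → Bool) (Z : Q → T) : Q × C → Bool := fun z => code (Z z.1) z.2

theorem pd_cat {Q C T : Type} [Fintype Q] [Fintype C] {code : T → C → Bool} {U : Q → T}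
    {r : Q × C → ℝ} {b s : ℝ} (hs : 0 ≤ s)
    (h : frac (fun q => s < pd (row r q) (code (U q))) ≤ b) : pd r (cat code U) ≤ b + s :=
  (frac_prod_le (P := fun q => s < pd (row r q) (code (U q)))
    (R := fun z => r z ≠ bv (cat code U z)) hs fun _ hq => not_lt.1 hq).trans (add_le_add_left h _)

variable {α : Type} [Enc α] {c : ℕ} {O : OFam α c} {a : α} {C : Type} [Fintype C]
  {code : Sym (O.ℓ a) → C → Bool} {hs s K Δ θO hO : ℝ}

section One

variable {w fl : O.Q.T a × C → ℝ} {res : Fin 4 → O.Q.T a × C → ℝ}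
  {Gd : O.Q.T a → Sym (O.ℓ a) → Prop} {Bk : O.Q.T a → Prop}

theorem LevOk.first (h : LevOk code (O.rule a) hs s s w fl res Gd Bk) (h0 : 0 < hs)
    (Z : O.Q.T a → Sym (O.ℓ a)) :
    frac (fun q => Bk q ∨ hs < tvd (row w q) (code (Z q))) ≤ s + tvd w (cat code Z) / hs :=
  (frac_or _ _).trans (add_le_add h.small
    (frac_rows (R := fun z => 2 / 5 < |w z - bv (cat code Z z)|) h0 le_rfl))

theorem LevOk.first' (h : LevOk code (O.rule a) hs s s w fl res Gd Bk) (h0 : 0 < hs)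
    (Z : O.Q.T a → Sym (O.ℓ a)) : frac (fun q => ¬ Gd q (Z q)) ≤ s + tvd w (cat code Z) / hs :=
  (frac_mono fun q hq => by
    by_contra hn
    rw [not_or, not_lt] at hn
    exact hq (h.near q hn.1 _ hn.2).1).trans (h.first h0 Z)

theorem LevOk.cor (h : LevOk code (O.rule a) hs s s w fl res Gd Bk)
    (hg : (O.sys a).Good noInp Δ θO hO) {Z : O.Q.T a → Sym (O.ℓ a)} (hZ : (O.sys a).Valid noInp Z)
    (hb : frac (fun q => ¬ Gd q (Z q)) ≤ hO) :
    frac (fun q => s < pd (row (res 1) q) (code (Z q))) ≤ frac (fun q => ¬ Gd q (Z q)) / 2 + s := by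
  refine (frac_le_add fun q h1 h2 => not_lt.2 ?_).trans (add_le_add (hg.cor Z hZ _ hb) h.small)
  refine h.app q h2 1 Z _ _ (fun _ => not_not.1) (by_contra fun h3 => h1 ?_)
  rw [frac_unit _ h3]
  norm_num

theorem LevOk.op (h : LevOk code (O.rule a) hs s s w fl res Gd Bk) (hb : (O.sys a).Bal K)
    (o : Fin 4) (Z : O.Q.T a → Sym (O.ℓ a)) :
    frac (fun q => s < pd (row (res o) q) (code ((O.rule a o q).eval noInp Z))) ≤
      s + c * |K| * frac fun q => ¬ Gd q (Z q) := by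
  rw [mul_assoc]
  refine (frac_le_add fun q h1 h2 => not_lt.2 ?_).trans
    (add_le_add h.small (frac_reads (ruleBal hb o) _))
  refine h.app q h1 o Z _ _ (fun _ => not_not.1) fun W hW => ?_
  exact congrArg (O.rule a o q).fn (funext fun j => hW _ fun h3 => h2 ⟨j, h3⟩)

end One

/-- The conditions on the parameters. -/
structure Par (M δ hs θO hO h0 θ h2 s : ℝ) (t : ℕ) : Prop where
  hO0 : 0 < hO
  hs0 : 0 < hs
  δ0 : 0 < δ
  δ1 : δ ≤ 1
  h01 : h0 ≤ hs * hO / 2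
  θ1 : θ ≤ h0 / 2
  θ2 : 5 * θ * (1 + M) ≤ δ * θO
  θ3 : 10 * θ ≤ δ * hO
  s0 : 0 ≤ s
  s1 : s ≤ θ
  s2 : s ≤ hs
  s3 : s ≤ δ / 2
  s4 : (10 + 6 * M) * s ≤ h2
  s5 : (6 + 5 * M) * s ≤ h0 / 2
  t1 : hO / 2 ^ t ≤ s

/-- The chain of levels and the test register. -/
structure Chain (O : OFam α c) (a : α) (code : Sym (O.ℓ a) → C → Bool) (hs s : ℝ) (t : ℕ)
    (w fl : Fin (t + 1) → O.Q.T a × C → ℝ) (res : Fin (t + 1) → Fin 4 → O.Q.T a × C → ℝ)
    (Gd : Fin (t + 1) → O.Q.T a → Sym (O.ℓ a) → Prop) (Bk : Fin (t + 1) → O.Q.T a → Prop)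
    (tst : O.Q.T a × C → ℝ) (bad : O.Q.T a × C → Prop) : Prop where
  lev : ∀ i, LevOk code (O.rule a) hs s s (w i) (fl i) (res i) (Gd i) (Bk i)
  link : ∀ i : Fin t, w i.succ = res i.castSucc 1
  unit : ∀ z, 0 ≤ tst z ∧ tst z ≤ 1
  small : frac bad ≤ s
  fire : ∀ z, ¬ bad z → fl 0 z = 1 ∨ 2 / 5 < |w 0 z - res (Fin.last t) 1 z| ∨
    res 0 0 z = bv (!code (zsym _) z.2) → tst z = 1
  quiet : ∀ z, ¬ bad z → fl 0 z = 0 → w 0 z = res (Fin.last t) 1 z →
    res 0 0 z = bv (code (zsym _) z.2) → tst z = 0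

variable {δ h0 θ h2 : ℝ} {t : ℕ} {w fl : Fin (t + 1) → O.Q.T a × C → ℝ}
  {res : Fin (t + 1) → Fin 4 → O.Q.T a × C → ℝ}
  {Gd : Fin (t + 1) → O.Q.T a → Sym (O.ℓ a) → Prop} {Bk : Fin (t + 1) → O.Q.T a → Prop}
  {tst : O.Q.T a × C → ℝ} {bad : O.Q.T a × C → Prop} {Z : O.Q.T a → Sym (O.ℓ a)}

theorem Par.s6 {M : ℝ} (p : Par M δ hs θO hO h0 θ h2 s t) : s ≤ hO / 10 := by
  nlinarith [p.s1, p.θ3, p.δ1, p.hO0]

theorem Chain.last {M : ℝ} (h : Chain O a code hs s t w fl res Gd Bk tst bad)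
    (p : Par M δ hs θO hO h0 θ h2 s t) (hg : (O.sys a).Good noInp Δ θO hO)
    (hZ : (O.sys a).Valid noInp Z) (hb : frac (fun q => ¬ Gd 0 q (Z q)) ≤ hO) :
    frac (fun q => ¬ Gd (Fin.last t) q (Z q)) ≤ 5 * s ∧
      pd (res (Fin.last t) 1) (cat code Z) ≤ 5 * s := by
  have key : ∀ i : Fin (t + 1), frac (fun q => ¬ Gd i q (Z q)) ≤ hO ∧
      frac (fun q => ¬ Gd i q (Z q)) ≤ hO / 2 ^ i.1 + 4 * s := by
    intro i
    induction i using Fin.induction with
    | zero => exact ⟨hb, by simpa using hb.trans (by linarith [p.s0])⟩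
    | succ i ih =>
      have h1 : frac (fun q => ¬ Gd i.succ q (Z q)) ≤
          frac (fun q => ¬ Gd i.castSucc q (Z q)) / 2 + s + s := by
        refine (frac_le_add fun q h1 h2 => not_not.2 ?_).trans
          (add_le_add ((h.lev i.castSucc).cor hg hZ ih.1) (h.lev i.succ).small)
        refine ((h.lev i.succ).near q h2 _ ?_).1
        rw [h.link]
        exact ((tvd_le_pd _ _).trans (not_lt.1 h1)).trans p.s2
      have h2 := ih.2
      rw [Fin.val_castSucc] at h2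
      rw [Fin.val_succ, pow_succ, ← div_div]
      constructor <;> linarith [ih.1, p.s6, p.hO0]
  obtain ⟨h1, h2⟩ := key (Fin.last t)
  rw [Fin.val_last] at h2
  have h3 := pd_cat p.s0 ((h.lev (Fin.last t)).cor hg hZ h1)
  constructor <;> linarith [p.t1, p.s0]

theorem Chain.near {M : ℝ} (h : Chain O a code hs s t w fl res Gd Bk tst bad)
    (p : Par M δ hs θO hO h0 θ h2 s t) {d : ℝ} (hd : d ≤ hs * hO / 2)
    (hw : tvd (w 0) (cat code Z) ≤ d) : frac (fun q => ¬ Gd 0 q (Z q)) ≤ hO := by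
  have h1 : tvd (w 0) (cat code Z) / hs ≤ hO / 2 := by
    rw [div_le_iff₀ p.hs0]
    linarith
  linarith [(h.lev 0).first' p.hs0 Z, p.s6, p.hO0]

theorem Chain.op (h : Chain O a code hs s t w fl res Gd Bk tst bad)
    (p : Par (c * |K|) δ hs θO hO h0 θ h2 s t) (hb : (O.sys a).Bal K)
    (hg : (O.sys a).Good noInp Δ θO hO) (hZ : (O.sys a).Valid noInp Z)
    (hw : tvd (w 0) (cat code Z) ≤ h0) (o : Fin 4) {U : O.Q.T a → Sym (O.ℓ a)}
    (hU : ∀ q, (O.rule a o q).eval noInp Z = U q) :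
    tvd (res (Fin.last t) o) (cat code U) ≤ h2 := by
  have h1 := (h.last p hg hZ (h.near p p.h01 hw)).1
  have h3 := pd_cat p.s0 ((h.lev (Fin.last t)).op hb o Z)
  have h4 : (0 : ℝ) ≤ c * |K| := by positivity
  rw [funext hU] at h3
  nlinarith [tvd_le_pd (res (Fin.last t) o) (cat code U), p.s0, p.s4, mul_nonneg h4 p.s0,
    mul_le_mul_of_nonneg_left h1 h4]

theorem Chain.sound [Nonempty C] (h : Chain O a code hs s t w fl res Gd Bk tst bad)
    (p : Par (c * |K|) δ hs θO hO h0 θ h2 s t) (hb : (O.sys a).Bal K)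
    (hg : (O.sys a).Good noInp Δ θO hO)
    (hd : ∀ σ σ', σ ≠ σ' → δ ≤ frac fun z => code σ z ≠ code σ' z) (hm : mean tst ≤ θ) :
    ∃ Z, (O.sys a).Valid noInp Z ∧ tvd (w 0) (cat code Z) ≤ h0 := by
  classical
  have hM : (0 : ℝ) ≤ c * |K| := by positivity
  obtain ⟨Fire, hF⟩ : ∃ Fire : O.Q.T a × C → Prop, ∀ z, Fire z ↔ fl 0 z = 1 ∨
      2 / 5 < |w 0 z - res (Fin.last t) 1 z| ∨ res 0 0 z = bv (!code (zsym _) z.2) :=
    ⟨_, fun _ => Iff.rfl⟩
  have h1 : frac Fire ≤ s + θ :=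
    (frac_le_add fun z h1 h2 h3 => h2 (h.fire z h1 ((hF z).1 h3))).trans
      (add_le_add h.small ((frac_one_le_mean fun z => (h.unit z).1).trans hm))
  obtain ⟨S, hS⟩ : ∃ S : O.Q.T a → Prop, ∀ q, S q ↔ δ / 2 ≤ frac fun z => Fire (q, z) :=
    ⟨_, fun _ => Iff.rfl⟩
  have h2 : frac S * (δ / 2) ≤ s + θ := (frac_prod_ge fun q hq => (hS q).1 hq).trans h1
  obtain ⟨b, hb1, hb2⟩ : ∃ b, frac S + s ≤ b ∧ δ * b ≤ 5 * θ :=
    ⟨_, le_rfl, by nlinarith [p.s1, p.δ1, p.s0]⟩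
  have h3 : ∀ q, ∃ σ, ¬ S q → ¬ Bk 0 q → Gd 0 q σ := by
    intro q
    by_cases h3 : S q ∨ Bk 0 q
    · exact ⟨zsym _, fun h4 h5 => (h3.elim h4 h5).elim⟩
    rcases (h.lev 0).flag q fun h4 => h3 (Or.inr h4) with ⟨σ, h4⟩ | h4
    · exact ⟨σ, fun _ _ => h4⟩
    · refine absurd (Or.inl ((hS q).2 ?_)) h3
      have h5 := one_le_frac_add (p := fun z => fl 0 (q, z) ≠ bv true) (q := fun z => Fire (q, z))
        fun z hz => (hF _).2 (Or.inl (not_not.1 hz))
      unfold pd at h4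
      linarith [p.s3, p.δ1]
  choose Z0 hZ0 using h3
  have h4 : frac (fun q => ¬ Gd 0 q (Z0 q)) ≤ b :=
    (frac_le_add fun q h4 h5 => not_not.2 (hZ0 q h4 h5)).trans
      ((add_le_add_right (h.lev 0).small _).trans hb1)
  have h5 : frac (fun x : O.Q.T a × Unit => ((O.sys a).tst x.1 x.2).eval noInp Z0 = false) ≤
      frac S + (s + c * |K| * frac fun q => ¬ Gd 0 q (Z0 q)) := by
    rw [frac_fst (Y := Unit) fun q => ((O.sys a).tst q ()).eval noInp Z0 = false]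
    refine (frac_le_add fun q h5 h6 h7 => h5 ((hS q).2 ?_)).trans
      (add_le_add_right ((h.lev 0).op hb 0 Z0) _)
    have h8 := (hd _ _ (of_decide_eq_false h7)).trans (frac_le_add (q := fun z => Fire (q, z))
      (r := fun z => res 0 0 (q, z) ≠ bv (code ((O.rule a 0 q).eval noInp Z0) z))
      fun z h8 h9 h10 => h8 ((hF _).2 (Or.inr (Or.inr ?_))))
    · have h9 := not_lt.1 h6
      unfold pd at h9
      linarith [p.s3]
    · rw [not_not.1 h9]
      exact congrArg bv (Bool.eq_not.2 h10)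
  have h6 : b * (1 + c * |K|) ≤ θO := le_of_mul_le_mul_left
    (by nlinarith [p.θ2, mul_le_mul_of_nonneg_right hb2 (by positivity : 0 ≤ 1 + c * |K|)]) p.δ0
  obtain ⟨Z, hZ, h7⟩ := hg.sound Z0 (by nlinarith [mul_le_mul_of_nonneg_left h4 hM])
  have h8 : b ≤ hO / 2 := le_of_mul_le_mul_left (by linarith [p.θ3]) p.δ0
  have h9 : frac (fun q => ¬ Gd 0 q (Z q)) ≤ hO :=
    (frac_le_add fun q h9 h10 => not_not.2 (not_not.1 h10 ▸ not_not.1 h9)).trans
      ((add_le_add h4 h7).trans (by linarith))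
  refine ⟨Z, hZ, (frac_le_add fun z h10 h11 h12 => h10 ((hF z).2 (Or.inr (Or.inl ?_)))).trans
    ((add_le_add h1 (h.last p hg hZ h9).2).trans ?_)⟩
  · rwa [not_not.1 h11]
  · nlinarith [p.θ1, p.s5, mul_nonneg hM p.s0]

theorem Chain.compl (h : Chain O a code hs s t w fl res Gd Bk tst bad)
    (p : Par (c * |K|) δ hs θO hO h0 θ h2 s t) (hb : (O.sys a).Bal K)
    (hg : (O.sys a).Good noInp Δ θO hO) (hZ : (O.sys a).Valid noInp Z) :
    mean tst ≤ (1 + (1 + c * |K|) / hs + 2 / (hs * hO)) * pd (w 0) (cat code Z) + h2 := by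
  have hM : (0 : ℝ) ≤ c * |K| := by positivity
  have h1 := p.hs0
  have h3 := p.hO0
  have h4 : 0 ≤ pd (w 0) (cat code Z) := frac_nonneg _
  have h5 := mul_nonneg hM p.s0
  have h6 : 0 ≤ (1 + c * |K|) / hs * pd (w 0) (cat code Z) := by positivity
  have h7 : 0 ≤ 2 / (hs * hO) * pd (w 0) (cat code Z) := by positivity
  have h8 := mean_le_frac fun z => (h.unit z).2
  by_cases h9 : pd (w 0) (cat code Z) ≤ hs * hO / 2
  swap
  · have h10 : 1 ≤ 2 / (hs * hO) * pd (w 0) (cat code Z) := by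
      rw [div_mul_eq_mul_div, le_div_iff₀ (by positivity)]
      linarith
    linarith [frac_le_one fun z => tst z ≠ 0, p.s4, p.s0]
  have h10 := tvd_le_pd (w 0) (cat code Z)
  have h11 : tvd (w 0) (cat code Z) / hs ≤ pd (w 0) (cat code Z) / hs := by gcongr
  have h12 : frac (fun z => fl 0 z ≠ bv false) ≤ s + tvd (w 0) (cat code Z) / hs + s :=
    (frac_prod_le (P := fun q => Bk 0 q ∨ hs < tvd (row (w 0) q) (code (Z q)))
      (R := fun z => fl 0 z ≠ bv false) p.s0 fun q hq => ((h.lev 0).near q (fun h => hq (Or.inl h))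
        _ (not_lt.1 fun h => hq (Or.inr h))).2).trans (add_le_add_left ((h.lev 0).first h1 Z) _)
  have h13 := pd_cat p.s0 ((h.lev 0).op hb 0 Z)
  have h14 := mul_le_mul_of_nonneg_left ((h.lev 0).first' h1 Z) hM
  have h15 := (h.last p hg hZ (h.near p le_rfl (h10.trans h9))).2
  have h16 : frac (fun z => w 0 z ≠ res (Fin.last t) 1 z) ≤ pd (w 0) (cat code Z) + 5 * s :=
    (frac_le_add fun z h16 h17 => not_not.2 ((not_not.1 h16).trans (not_not.1 h17).symm)).trans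
      (add_le_add_right h15 _)
  have h17 : frac (fun z => tst z ≠ 0) ≤ _ :=
    (frac_le_add (q := bad) (r := fun z => fl 0 z ≠ bv false ∨ w 0 z ≠ res (Fin.last t) 1 z ∨
      res 0 0 z ≠ bv (cat code (fun q => (O.rule a 0 q).eval noInp Z) z)) fun z h17 h18 => by
        simp only [not_or, not_not] at h18
        refine not_not.2 (h.quiet z h17 h18.1 h18.2.1 (h18.2.2.trans ?_))
        exact congrArg (fun σ => bv (code σ z.2)) (of_decide_eq_true (hZ z.1 ()))).trans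
      (add_le_add h.small ((frac_or _ _).trans (add_le_add h12
        ((frac_or _ _).trans (add_le_add h16 h13)))))
  have h18 := mul_le_mul_of_nonneg_left h11 hM
  have h19 : (1 + c * |K|) / hs * pd (w 0) (cat code Z) =
    pd (w 0) (cat code Z) / hs + c * |K| * (pd (w 0) (cat code Z) / hs) := by ring
  linarith [p.s4]

theorem Chain.bhyp [Nonempty C] (h : Chain O a code hs s t w fl res Gd Bk tst bad)
    (p : Par (c * |K|) δ hs θO hO h0 θ h2 s t) (hb : (O.sys a).Bal K)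
    (hg : (O.sys a).Good noInp Δ θO hO)
    (hd : ∀ σ σ', σ ≠ σ' → δ ≤ frac fun z => code σ z ≠ code σ' z) :
    BHyp (fun u => ∃ Z, (O.sys a).Valid noInp Z ∧ u = cat code Z) h0 θ
      (1 + (1 + c * |K|) / hs + 2 / (hs * hO)) h2 (w 0) (res (Fin.last t) 1) tst where
  sound hm := by
    obtain ⟨Z, hZ, h1⟩ := h.sound p hb hg hd hm
    exact ⟨_, ⟨Z, hZ, rfl⟩, h1⟩
  cor := by
    rintro _ ⟨Z, hZ, rfl⟩ hw
    have h1 := (h.last p hg hZ (h.near p p.h01 hw)).2
    have hM : (0 : ℝ) ≤ c * |K| := by positivity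
    linarith [tvd_le_pd (res (Fin.last t) 1) (cat code Z), p.s4, p.s0, mul_nonneg hM p.s0]
  compl := by
    rintro _ ⟨Z, hZ, rfl⟩
    exact h.compl p hb hg hZ

end Vale.Agent.P330.Comp
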