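import Vale.Agent.P330.Phys.Gadget

/-!
P330, T9: counting lemmas for the composition.
-/

namespace Vale.Agent.P330.Comp

open Glue

section Count

variable {X Y : Type} [Fintype X] [Fintype Y]

theorem mean_mono {f g : X → ℝ} (h : ∀ a, f a ≤ g a) : mean f ≤ mean g :=
  div_le_div_of_nonneg_right (Finset.sum_le_sum fun a _ => h a) (by positivity)

theorem mean_add (f g : X → ℝ) : mean (fun a => f a + g a) = mean f + mean g := by
  unfold mean
  rw [Finset.sum_add_distrib, add_div]

theorem mean_const_le {t : ℝ} (ht : 0 ≤ t) : mean (fun _ : X => t) ≤ t := by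
  unfold mean
  rw [Finset.sum_const, nsmul_eq_mul, Finset.card_univ]
  rcases Nat.eq_zero_or_pos (Fintype.card X) with h | h
  · simp [h, ht]
  · have : (0 : ℝ) < Fintype.card X := by exact_mod_cast h
    rw [mul_div_cancel_left₀ _ this.ne']

theorem frac_le_one (p : X → Prop) : frac p ≤ 1 := by
  classical
  refine div_le_one_of_le₀ ?_ (by positivity)
  exact_mod_cast Finset.card_le_univ _

theorem frac_eq_mean (p : X → Prop) [DecidablePred p] :
    frac p = mean fun a => if p a then 1 else 0 := by
  rw [mean_ite, mul_one]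

theorem frac_or (p q : X → Prop) : frac (fun a => p a ∨ q a) ≤ frac p + frac q := by
  classical
  rw [frac_eq_mean, frac_eq_mean p, frac_eq_mean q, ← mean_add]
  refine mean_mono fun a => ?_
  by_cases h1 : p a <;> by_cases h2 : q a <;> simp [h1, h2]

theorem frac_le_add {p q r : X → Prop} (h : ∀ a, ¬ q a → ¬ r a → ¬ p a) :
    frac p ≤ frac q + frac r :=
  (frac_mono fun a ha => by
    by_contra hn
    exact h a (fun h1 => hn (Or.inl h1)) (fun h1 => hn (Or.inr h1)) ha).trans (frac_or q r)

theorem frac_le_add3 {p q r s : X → Prop} (h : ∀ a, ¬ q a → ¬ r a → ¬ s a → ¬ p a) :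
    frac p ≤ frac q + frac r + frac s :=
  (frac_le_add (q := fun a => q a ∨ r a) (r := s) fun a h1 h2 =>
    h a (fun h3 => h1 (Or.inl h3)) (fun h3 => h1 (Or.inr h3)) h2).trans
    (add_le_add_left (frac_or q r) _)

theorem one_le_frac_add [Nonempty X] {p q : X → Prop} (h : ∀ a, ¬ p a → q a) :
    1 ≤ frac p + frac q := by
  rw [← frac_true (X := X)]
  exact frac_le_add fun a h1 h2 _ => h2 (h a h1)

theorem frac_exists {ι : Type} [Fintype ι] {p : ι → X → Prop} {t : ℝ} (h : ∀ i, frac (p i) ≤ t) :
    frac (fun a => ∃ i, p i a) ≤ Fintype.card ι * t := by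
  classical
  have key : ∀ s : Finset ι, frac (fun a => ∃ i ∈ s, p i a) ≤ s.card * t := by
    intro s
    induction s using Finset.induction_on with
    | empty => simp [frac]
    | insert i s hi ih =>
      refine (frac_le_add (q := p i) (r := fun a => ∃ j ∈ s, p j a) ?_).trans ?_
      · rintro a h1 h2 ⟨j, hj, hp⟩
        rcases Finset.mem_insert.1 hj with rfl | hj
        · exact h1 hp
        · exact h2 ⟨j, hj, hp⟩
      · rw [Finset.card_insert_of_notMem hi]
        push_cast
        linarith [h i]
  simpa using key Finset.univ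

theorem frac_prod_ge {P : X → Prop} {R : X × Y → Prop} {t : ℝ}
    (h : ∀ a, P a → t ≤ frac fun b => R (a, b)) : frac P * t ≤ frac R := by
  classical
  rw [← mean_ite, show frac R = _ from frac_prod_mean fun a b => R (a, b)]
  refine mean_mono fun a => ?_
  split_ifs with ha
  · exact h a ha
  · exact frac_nonneg _

theorem frac_prod_le {P : X → Prop} {R : X × Y → Prop} {t : ℝ} (ht : 0 ≤ t)
    (h : ∀ a, ¬ P a → frac (fun b => R (a, b)) ≤ t) : frac R ≤ frac P + t := by
  classical
  rw [show frac R = _ from frac_prod_mean fun a b => R (a, b), frac_eq_mean P]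
  refine le_trans (mean_mono (g := fun a => (if P a then 1 else 0) + t) fun a => ?_) ?_
  · split_ifs with ha
    · linarith [frac_le_one fun b => R (a, b)]
    · linarith [h a ha]
  · rw [mean_add]
    linarith [mean_const_le (X := X) ht]

/-- Markov's inequality for the rows. -/
theorem frac_rows {R : X × Y → Prop} {t η : ℝ} (ht : 0 < t) (h : frac R ≤ η) :
    frac (fun a => t < frac fun b => R (a, b)) ≤ η / t := by
  rw [le_div_iff₀ ht]
  exact (frac_prod_ge fun a ha => ha.le).trans h

theorem frac_swap (R : X × Y → Prop) : frac (fun z : Y × X => R (z.2, z.1)) = frac R := by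
  classical
  rw [frac_eq_mean, frac_eq_mean R]
  unfold mean
  rw [Fintype.card_prod, Fintype.card_prod, mul_comm, Fintype.sum_prod_type, Finset.sum_comm,
    Fintype.sum_prod_type]

/-- a single column -/
theorem frac_col (R : X × Y → Prop) (b : Y) :
    frac (fun a => R (a, b)) ≤ Fintype.card Y * frac R := by
  have hY : (0 : ℝ) < Fintype.card Y := by exact_mod_cast Fintype.card_pos_iff.2 ⟨b⟩
  have h := frac_prod_ge (P := fun y => y = b) (R := fun z : Y × X => R (z.2, z.1))
    (t := frac fun a => R (a, b)) fun y hy => by rw [hy]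
  rw [frac_swap, frac_eq_one, one_div, inv_mul_le_iff₀ hY] at h
  exact h

/-- a single row -/
theorem frac_row (R : X × Y → Prop) (a : X) :
    frac (fun b => R (a, b)) ≤ Fintype.card X * frac R := by
  rw [← frac_swap R]
  exact frac_col (fun z : Y × X => R (z.2, z.1)) a

theorem frac_one_le_mean {t : X → ℝ} (h : ∀ a, 0 ≤ t a) : frac (fun a => t a = 1) ≤ mean t := by
  classical
  rw [frac_eq_mean]
  refine mean_mono fun a => ?_
  split_ifs with ha
  · exact ha.ge
  · exact h a

theorem mean_le_frac {t : X → ℝ} (h : ∀ a, t a ≤ 1) : mean t ≤ frac fun a => t a ≠ 0 := by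
  classical
  rw [frac_eq_mean]
  refine mean_mono fun a => ?_
  split_ifs with ha
  · exact h a
  · exact (not_not.1 ha).le

theorem abs_mean_sub {f g : X → ℝ} {t : ℝ} (ht : 0 ≤ t) (h : ∀ a, |f a - g a| ≤ t) :
    |mean f - mean g| ≤ t := by
  have h0 := mean_const_le (X := X) ht
  have h1 := mean_mono (f := f) (g := fun a => g a + t) fun a => by
    linarith [(abs_le.1 (h a)).2]
  have h2 := mean_mono (f := g) (g := fun a => f a + t) fun a => by
    linarith [(abs_le.1 (h a)).1]
  rw [mean_add] at h1 h2
  rw [abs_le]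
  constructor <;> linarith

theorem frac_unit (p : Unit → Prop) (h : p ()) : frac p = 1 := by
  rw [← frac_true (X := Unit)]
  exact frac_congr fun _ => by simpa using h

/-- The sites which read a bad site. -/
theorem frac_reads {c : ℕ} {A B : Type} {K : ℝ} {r : X → Unit → Rule 0 c X A B} (h : RuleBal K r)
    (p : X → Prop) : frac (fun q => ∃ j, p ((r q ()).rd j).2) ≤ c * (|K| * frac p) := by
  have := frac_exists (p := fun j q => p ((r q ()).rd j).2) (t := |K| * frac p) fun j => by
    rw [← frac_fst (Y := Unit)]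
    exact (h j p).trans (mul_le_mul_of_nonneg_right (le_abs_self K) (frac_nonneg _))
  simpa using this

end Count

/-! ### Gates -/

theorem sat_mk' {V D : Type} [En D] [DecidableEq D] {src : D → V} {F : (D → ℝ) → Bool} {η : ℝ}
    {x : V → ℝ} {o : ℝ} (h : (Gate.mk' src F).Sat η x o) (b : Bool)
    (hb : ∀ y : D → ℝ, (∀ d, |y d - x (src d)| ≤ η) → F y = b) : o = bv b := by
  refine h b fun y hy => hb _ fun d => ?_
  have hy' : List.Forall₂ (fun v t => |t - x (src v)| ≤ η) (elems D) y :=
    List.forall₂_map_left_iff.1 hy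
  have h1 : (elems D).idxOf d < (elems D).length := List.idxOf_lt_length_of_mem (En.complete d)
  have h2 : (elems D).idxOf d < y.length := hy'.length_eq ▸ h1
  have h3 := List.Forall₂.get hy' h1 h2
  rw [List.getD_eq_getElem _ _ h2]
  simpa using h3

theorem bv_inj {a b : Bool} (h : bv a = bv b) : a = b := by
  cases a <;> cases b <;> simp_all [bv]

theorem round_eq {w y η : ℝ} {b : Bool} (hη : η < 1 / 10) (h : ¬ 2 / 5 < |w - bv b|)
    (hy : |y - w| ≤ η) : decide (1 / 2 < y) = b := by
  rw [not_lt, abs_le] at h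
  rw [abs_le] at hy
  cases b
  · simp only [bv, Bool.false_eq_true, if_false] at h
    exact decide_eq_false (by linarith [h.2, hy.2])
  · simp only [bv, if_true] at h
    exact decide_eq_true (by linarith [h.1, hy.1])

theorem round_eq' {w y η : ℝ} {b : Bool} (hη : η < 1 / 10) (h : ¬ w ≠ bv b) (hy : |y - w| ≤ η) :
    decide (1 / 2 < y) = b :=
  round_eq hη (by rw [not_not.1 h]; norm_num) hy

end Vale.Agent.P330.Comp
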