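import Vale.Agent.P330.Comp.Chain
import Vale.Agent.P330.Poly
import Vale.Agent.P330.BasicPT

/-!
P330, T9: the inner objects of the composition exist.
-/

namespace Vale.Agent.P330.Comp

open Vale.Agent.Lib.PolyTime hiding C P
open Vale.Agent.Lib.Dep

theorem frac_encb_ne {P A S G : Type} [Fintype P] [Fintype A] [Fintype S] [Fintype G]
    [DecidableEq A] [Nonempty S] (q : G → Prop) (W W' : P → A) :
    frac (fun p => W p ≠ W' p) * (1 / Fintype.card A * frac q) ≤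
      frac fun z : Cell P A S G => q z.2.2.2 ∧ encb S G W z ≠ encb S G W' z := by
  refine frac_prod_ge (R := fun z : Cell P A S G => q z.2.2.2 ∧ encb S G W z ≠ encb S G W' z)
    fun p hp => ?_
  rw [← Glue.frac_eq_one (W p), ← Glue.frac_snd (X := S) q, ← Glue.frac_and_prod]
  refine Glue.frac_mono fun z hz => ⟨hz.2, ?_⟩
  have h2 : ¬ W' p = W p := fun h => hp h.symm
  simp [encb, hz.1, h2]

theorem exists_kit (hS : SampStmt) (hC : PhysCodeStmt) (hG : GadgetStmt) (hE : ExactStmt)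
    (hV : EvalStmt) (hB : BohrStmt) (c : ℕ) {F : List (List Bool) → List Bool} (hF : DPT F) :
    ∃ δ hd hs : ℝ, 0 < δ ∧ δ ≤ 1 ∧ 0 < hd ∧ 0 < hs ∧ ∀ (ε : ℝ) (g : ℕ), 0 < ε →
      ∃ (k : Kit c g) (e η : ℝ), 0 < η ∧ η ≤ e ∧ e ≤ ε ∧ k.Ok F δ hd hs ε e η := by
  obtain ⟨D, X, M, hM, hX⟩ := hV (c + 1) F hF
  obtain ⟨A, k, K, Δ, θ, h, hΔ, hθ, hh, hB⟩ := hB (c + 1) D
  have h1 : DPT Un.v := PT.unVal PT.id
  have h1b : PBd Un.v := PBd.unVal (A := ∅) PT.id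
  obtain ⟨P, S, L, E, sym, dec, decE, hO⟩ := hB Un Un.v X M h1 h1b hM fun a => (hX a).1
  have hA : (0 : ℝ) < Fintype.card A.T := by exact_mod_cast Fintype.card_pos
  obtain ⟨hs, hs0, hP⟩ := purStmt hS hC A k (2 * c + 1) K θ h hθ hh
  refine ⟨min (Δ / Fintype.card A.T) 1, h / (2 * Fintype.card A.T), hs, by positivity,
    min_le_right _ _, by positivity, hs0, fun ε g hε => ?_⟩
  obtain ⟨g1, ηA, RA, ro, hηA, hA'⟩ :=
    appStmt hG A (c + 1) k K Δ θ h hΔ hθ hh c ε (CT.finS g) hε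
  obtain ⟨e, e0, e1, e2⟩ : ∃ e : ℝ, 0 < e ∧ e ≤ ηA ∧ e ≤ ε :=
    ⟨min ηA ε, by positivity, min_le_left _ _, min_le_right _ _⟩
  obtain ⟨ηP, RP, rp, rf, hηP, hP⟩ := hP e (CT.prod (CT.finS g1) (CT.finS g)) e0
  have hz : DPT fun x : Σ a : Un, P.T a => sym x.1 (zsym _) x.2 :=
    DPT.fn2 sym hO.ptSym DPT.id.sfst ((dpt_zsym h1 h1b).comp DPT.id.sfst) DPT.ssnd
  obtain ⟨mP, hmP, hP⟩ := hP Un P S E (fun a => sym a (zsym _)) hO.ptE hz
  obtain ⟨mA, hmA, hA'⟩ := hA' Un P S L hO.ptL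
  obtain ⟨ex, hex, hE⟩ := hE 0 k Un P S (fun _ => A.T) E hO.ptE
    ⟨fun _ => Finset.univ.sup fun y : A.T => esize y, PBd.const _, fun _ y =>
      Finset.le_sup (f := fun y : A.T => esize y) (Finset.mem_univ y)⟩
  obtain ⟨rd, hrd, hR⟩ := PolyA.exists_rowDec P S A (CT.prod (CT.finS g1) (CT.finS g))
  have hd : ∀ a σ σ', σ ≠ σ' → ∀ q : Fin (g1 + 1) × Fin (g + 1) → Prop,
      min (Δ / Fintype.card A.T) 1 * frac q ≤
        frac fun z : Cell (P.T a) A.T (S.T a) (Fin (g1 + 1) × Fin (g + 1)) =>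
          q z.2.2.2 ∧ encb _ _ (sym a σ) z ≠ encb _ _ (sym a σ') z := by
    intro a σ σ' hne q
    refine le_trans ?_ (frac_encb_ne q _ _)
    have h2 := (hO.goodE a).dist _ _ ((hO.validE a _).2 ⟨σ, rfl⟩) ((hO.validE a _).2 ⟨σ', rfl⟩)
      fun h => hne (by rw [← hO.decE_sym a σ, h, hO.decE_sym])
    have h3 := Glue.frac_nonneg q
    rw [← mul_assoc, mul_one_div]
    gcongr
    exact (min_le_left _ _).trans (by gcongr)
  have hg : ∀ j, frac (fun y : Fin (g1 + 1) × Fin (g + 1) => y.2 = j) = 1 / ((g : ℝ) + 1) := by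
    intro j
    rw [Glue.frac_snd (X := Fin (g1 + 1)) fun y : Fin (g + 1) => y = j, Glue.frac_eq_one]
    simp
  refine ⟨⟨TF.cell P A S (CT.prod (CT.finS g1) (CT.finS g)), RP, RA,
    fun a σ => encb _ _ (sym a σ), fun a b => decE a (ex a (rd a b)), fun _ z => z.2.2.2.2, mP, mA,
    rp, rf, ro⟩, e, min ηP e, by positivity, min_le_right _ _, e2, ?_, ?_,
    DPT.ssnd.snd.snd.snd.snd, hmP, hmA, fun a j => ?_, fun a σ σ' hne => ?_,
    fun a σ σ' hne j => ?_, fun a σ w hw => ?_, fun a x hx hok => ?_,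
    fun a x hx hok τ bad hb => ?_⟩
  · exact DPT.decide (DPr.eq (DPT.fn2 sym hO.ptSym DPT.id.sfst DPT.ssnd.fst DPT.ssnd.snd.fst)
      DPT.ssnd.snd.snd.fst)
  · exact DPT.fn decE hO.ptDecE DPT.id.sfst (DPT.fn ex hex DPT.id.sfst hrd)
  · exact ((Glue.frac_snd (X := P.T a) fun y : A.T × S.T a × Fin (g1 + 1) × Fin (g + 1) =>
      y.2.2.2 = j).trans ((Glue.frac_snd (X := A.T)
        fun y : S.T a × Fin (g1 + 1) × Fin (g + 1) => y.2.2 = j).trans
      (Glue.frac_snd (X := S.T a) fun y : Fin (g1 + 1) × Fin (g + 1) => y.2 = j))).trans (hg j)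
  · have h2 := hd a σ σ' hne fun _ => True
    rw [Glue.frac_true, mul_one] at h2
    exact h2.trans (Glue.frac_mono fun z hz => hz.2)
  · have h2 := hd a σ σ' hne fun y => y.2 = j
    rwa [hg, mul_one_div] at h2
  · rw [le_div_iff₀ (by positivity), mul_comm] at hw
    exact (congrArg (decE a) (hE a noInp Δ θ h _ _ (hO.goodE a) ((hO.validE a _).2 ⟨σ, rfl⟩)
      ((hR a w _).trans hw))).trans (hO.decE_sym a σ)
  · have h2 := hP a Δ (hO.balE a) (hO.goodE a) ((hO.validE a _).2 ⟨_, rfl⟩) x hx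
      (Glue.ok_mono (min_le_left _ _) hok)
    have h3 : (fun u => ∃ W, (E a).Valid noInp W ∧ u = encb (S.T a) (Fin (g1 + 1) × Fin (g + 1)) W)
        = fun u => ∃ σ, u = encb (S.T a) (Fin (g1 + 1) × Fin (g + 1)) (sym a σ) := by
      funext u
      simp only [hO.validE]
      exact propext ⟨fun ⟨_, ⟨σ, h1⟩, h2⟩ => ⟨σ, h1 ▸ h2⟩, fun ⟨σ, h1⟩ => ⟨_, ⟨σ, rfl⟩, h1⟩⟩
    exact h3 ▸ h2
  · refine hA' a (hO.balL a) x hx (Glue.ok_mono ((min_le_right _ _).trans e1) hok) _ bad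
      fun f hf => ?_
    obtain ⟨σ, rfl, h2⟩ := hb f hf
    have h3 := (hX a).2 σ
    exact ⟨_, hO.good a σ h3.1, hO.start a σ h3.1, hO.evals a σ h3.1 _ h3.2,
      fun j => (h2 j).trans e1⟩

end Vale.Agent.P330.Comp
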