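import Vale.Agent.P330.Comp.App

/-!
P330, T9: one level of the composition: purification at every site and the four operations.
-/

namespace Vale.Agent.P330.Comp

open Vale.Agent.Lib.PolyTime hiding C P
open Vale.Agent.Lib.Dep
open Glue

/-- The inner objects: cells, code of the strings, decoder, grid, and the two modules. -/
structure Kit (c g : ℕ) where
  /-- the cells of a site -/
  C : TF Un
  /-- registers of the purification -/
  RP : CT
  /-- registers of the evaluation -/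
  RA : CT
  /-- the code -/
  code : ∀ a : Un, Sym a.v → C.T a → Bool
  /-- the decoder -/
  dc : ∀ a : Un, Vec (C.T a) Bool → Sym a.v
  /-- the grid coordinate -/
  th : ∀ a, C.T a → Fin (g + 1)
  /-- purification -/
  mP : ∀ a, Mod (C.T a) RP.T Unit
  /-- evaluation -/
  mA : ∀ a, Mod (C.T a) RA.T (Fin (c + 1) × Fin (2 * c + 1))
  /-- the versions -/
  rp : Fin (2 * c + 1) → RP.T
  /-- the flag -/
  rf : RP.T
  /-- the result -/
  ro : RA.T

/-- The properties of the inner objects. -/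
structure Kit.Ok {c g : ℕ} (k : Kit c g) (F : List (List Bool) → List Bool)
    (δ hd hs ε e η : ℝ) : Prop where
  ptCode : DPT fun x : Σ a : Un, Sym a.v × k.C.T a => k.code x.1 x.2.1 x.2.2
  ptDc : DPT fun x : Σ a, Vec (k.C.T a) Bool => k.dc x.1 x.2
  ptTh : DPT fun x : Σ a, k.C.T a => k.th x.1 x.2
  ptP : ModPT k.mP
  ptA : ModPT k.mA
  grid : ∀ a j, frac (fun z => k.th a z = j) = 1 / (g + 1)
  dist : ∀ a σ σ', σ ≠ σ' → δ ≤ frac fun z => k.code a σ z ≠ k.code a σ' z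
  distG : ∀ a σ σ', σ ≠ σ' → ∀ j,
    δ / (g + 1) ≤ frac fun z => k.th a z = j ∧ k.code a σ z ≠ k.code a σ' z
  dec : ∀ a σ (w : k.C.T a → ℝ), tvd w (k.code a σ) ≤ hd → k.dc a (rnd w) = σ
  pur : ∀ a x, Unit01 x → (k.mP a).Ok η x → PurOk (fun u => ∃ σ, u = k.code a σ) hs e (ext x ())
    (fun f => reg x (k.rp f)) (reg x k.rf)
  app : ∀ a x, Unit01 x → (k.mA a).Ok η x → ∀ τ (bad : Fin c → ℕ),
    (∀ f : Fin (2 * c + 1), (∀ j, f.1 ≠ bad j) → ∃ σ : Fin (c + 1) → Sym a.v, appF F σ = τ ∧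
      ∀ j, tvd (ext x (j, f)) (k.code a (σ j)) ≤ e) → pd (reg x k.ro) (k.code a τ) ≤ ε

/-- the word at the site `q` -/
abbrev row {Q C T : Type} (w : Q × C → T) (q : Q) : C → T := fun z => w (q, z)

/-- The properties of one level: `Gd q σ` says that the purified word at `q` is `σ`, and `Bk` is
the set of the broken sites. -/
structure LevOk {Q C T : Type} [Fintype Q] [Fintype C] {c : ℕ} (code : T → C → Bool)
    (rule : Fin 4 → Q → Rule 0 c Q T T) (hs ε β : ℝ) (w fl : Q × C → ℝ)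
    (res : Fin 4 → Q × C → ℝ) (Gd : Q → T → Prop) (Bk : Q → Prop) : Prop where
  small : frac Bk ≤ β
  near : ∀ q, ¬ Bk q → ∀ σ, tvd (row w q) (code σ) ≤ hs →
    Gd q σ ∧ pd (row fl q) (fun _ => false) ≤ ε
  flag : ∀ q, ¬ Bk q → (∃ σ, Gd q σ) ∨ pd (row fl q) (fun _ => true) ≤ ε
  app : ∀ q, ¬ Bk q → ∀ o Z B τ, (∀ q', ¬ B q' → Gd q' (Z q')) → (rule o q).Safe Z B τ →
    pd (row (res o) q) (code τ) ≤ ε

/-- a constant gate -/
def cstG {V : Type} (b : Bool) : Gate V := ⟨[], fun _ => b⟩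

theorem gatePT_cstG {α : Type} [Enc α] {V : α → Type} [∀ a, Enc (V a)] {b : α → Bool}
    (hb : DPT b) : GatePT fun a => (cstG (b a) : Gate (V a)) where
  src := DPT.nil
  fn := finSel_of_dpt (γ := Bool) (fun q (_ : List ℝ) => q) hb
  len := ⟨0, fun _ => le_rfl⟩

theorem ok_site {Q C R J R' J' : Type} [Fintype C] {M : Mod (Q × C) R' J'} {m : Mod C R J}
    {φ : C × (R ⊕ J) → (Q × C) × (R' ⊕ J')} {q : Q} {ι : R → R'} {η η' : ℝ}
    {x : (Q × C) × (R' ⊕ J') → ℝ} (h1 : ∀ z r, φ (z, Sum.inl r) = ((q, z), Sum.inl (ι r)))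
    (h2 : ∀ z r, M (q, z) (ι r) = (m z r).map φ) (hη : η ≤ η')
    (h : ∀ r, frac (fun z => ¬ (M (q, z) r).Sat η x (x ((q, z), Sum.inl r))) ≤ η') :
    m.Ok η' fun z => x (φ z) := by
  refine fun r => (frac_mono fun z hz hs => hz ?_).trans (h (ι r))
  rw [h2, sat_map, ← h1] at hs
  exact sat_mono hη hs

theorem frac_broken {Q C R J : Type} [Fintype Q] [Fintype C] [Fintype R] {M : Mod (Q × C) R J}
    {η η' : ℝ} {x : (Q × C) × (R ⊕ J) → ℝ} (h0 : 0 < η') (h : M.Ok η x) :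
    frac (fun q => ∃ r, η' < frac fun z => ¬ (M (q, z) r).Sat η x (x ((q, z), Sum.inl r))) ≤
      Fintype.card R * (η / η') :=
  frac_exists fun r =>
    frac_rows (R := fun z => ¬ (M z r).Sat η x (x (z, Sum.inl r))) h0 (h r)

/-- the registers of a level -/
abbrev LReg (RP RA : Type) : Type := RP ⊕ Fin 4 × Option RA

section Lev

variable {Q C RP RA : Type} {c n : ℕ}

/-- the place of the purification at the site `q` -/
def phiP (RA : Type) (q : Q) : C × (RP ⊕ Unit) → (Q × C) × (LReg RP RA ⊕ Unit) :=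
  fun z => ((q, z.1), z.2.map Sum.inl id)

/-- the sites used by the evaluation at the site `q` -/
def siteA (q : Q) (rd : Fin c → Q) : RA ⊕ Fin (c + 1) × Fin n → Q :=
  Sum.elim (fun _ => q) fun p => Fin.cons (α := fun _ => Q) q rd p.1

/-- the registers used by the evaluation -/
def regA (rp : Fin n → RP) (o : Fin 4) : RA ⊕ Fin (c + 1) × Fin n → LReg RP RA ⊕ Unit :=
  Sum.elim (fun r => Sum.inl (Sum.inr (o, some r))) fun p =>
    Fin.cons (α := fun _ => LReg RP RA ⊕ Unit) (Sum.inl (Sum.inr (o, none)))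
      (fun _ => Sum.inl (Sum.inl (rp p.2))) p.1

/-- the place of the evaluation -/
def phiA (rp : Fin n → RP) (o : Fin 4) (q : Q) (rd : Fin c → Q) :
    C × (RA ⊕ Fin (c + 1) × Fin n) → (Q × C) × (LReg RP RA ⊕ Unit) :=
  fun z => ((siteA q rd z.2, z.1), regA rp o z.2)

end Lev

variable {α : Type} [Enc α] {c g : ℕ}

/-- the length of the strings as an instance of the inner construction -/
abbrev un (O : OFam α c) (a : α) : Un := ⟨O.ℓ a⟩

/-- the cells of the composed system -/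
abbrev Top (k : Kit c g) (O : OFam α c) (a : α) : Type := O.Q.T a × k.C.T (un O a)

/-- the module of a level -/
def levMod (k : Kit c g) (O : OFam α c) (a : α) : Mod (Top k O a) (LReg k.RP.T k.RA.T) Unit :=
  fun z r => match r with
    | Sum.inl r => (k.mP (un O a) z.2 r).map (phiP _ z.1)
    | Sum.inr (o, none) => cstG (k.code (un O a) (O.cst a o z.1) z.2)
    | Sum.inr (o, some r) => (k.mA (un O a) z.2 r).map (phiA k.rp o z.1 (O.rd a o z.1))

theorem dpt_un {O : OFam α c} (hO : O.IsPT) : DPT (un O) :=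
  DPT.ofPT (PT.mkUn hO.len.toPT hO.lenb)

theorem dpt_inner {k : Kit c g} {O : OFam α c} (hO : O.IsPT) :
    DPT fun x : Σ a, Top k O a => (⟨un O x.1, x.2.2⟩ : Σ a, k.C.T a) :=
  DPT.smk ((dpt_un hO).comp (DPT.sfst DPT.id)) (DPT.snd DPT.ssnd)

theorem dpt_site {k : Kit c g} {O : OFam α c} :
    DPT fun x : Σ a, Top k O a => (⟨x.1, x.2.1⟩ : Σ a, O.Q.T a) :=
  DPT.smk (DPT.sfst DPT.id) (DPT.fst DPT.ssnd)

theorem dpt_code {k : Kit c g} {O : OFam α c} {F : List (List Bool) → List Bool}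
    {δ hd hs ε e η : ℝ} (hk : k.Ok F δ hd hs ε e η) (hO : O.IsPT)
    {s : ∀ a, O.Q.T a → Sym (O.ℓ a)} (h : DPT fun x : Σ a, O.Q.T a => s x.1 x.2) :
    DPT fun x : Σ a, Top k O a => k.code (un O x.1) (s x.1 x.2.1) x.2.2 :=
  hk.ptCode.comp (f := fun x : Σ a, Top k O a =>
    (⟨un O x.1, s x.1 x.2.1, x.2.2⟩ : Σ a : Un, Sym a.v × k.C.T a))
    (DPT.smk ((dpt_un hO).comp (DPT.sfst DPT.id)) ((h.comp dpt_site).pair (DPT.snd DPT.ssnd)))

theorem modPT_lev {k : Kit c g} {O : OFam α c} {F : List (List Bool) → List Bool}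
    {δ hd hs ε e η : ℝ} (hk : k.Ok F δ hd hs ε e η) (hO : O.IsPT) : ModPT (levMod k O) := by
  rintro (r | ⟨o, _ | r⟩)
  · exact gatePT_map (gatePT_comp (hk.ptP r) (dpt_inner hO)) (fun x => phiP _ x.2.1)
      (DPT.pair (DPT.pair (DPT.fst (DPT.ssnd.comp (DPT.sfst DPT.id))) (DPT.fst DPT.ssnd))
        (dpt_fin _ (DPT.snd DPT.ssnd)))
  · exact gatePT_cstG (dpt_code (s := fun a => O.cst a o) hk hO (hO.cst o))
  · refine gatePT_map (gatePT_comp (hk.ptA r) (dpt_inner hO))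
      (fun x => phiA k.rp o x.2.1 (O.rd x.1 o x.2.1))
      (DPT.pair (DPT.pair ?_ (DPT.fst DPT.ssnd)) (dpt_fin _ (DPT.snd DPT.ssnd)))
    refine Glue.dpt_finCase (V := fun x : Σ x : Σ a, Top k O a, _ => O.Q.T x.1.1) (DPT.snd DPT.ssnd)
      (f := fun s x => siteA x.1.2.1 (O.rd x.1.1 o x.1.2.1) s) ?_
    have h0 : DPT fun x : Σ x : Σ a, Top k O a, k.C.T (un O x.1) ×
        (k.RA.T ⊕ Fin (c + 1) × Fin (2 * c + 1)) => x.1.2.1 :=
      DPT.fst (DPT.ssnd.comp (DPT.sfst DPT.id))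
    rintro (r | ⟨j, f⟩)
    · exact h0
    · induction j using Fin.cases with
      | zero => exact h0
      | succ j => exact ((hO.rd o j).comp dpt_site).comp (DPT.sfst DPT.id)

theorem ruleBal {O : OFam α c} {a : α} {K : ℝ} (h : (O.sys a).Bal K) (o : Fin 4) :
    RuleBal K fun q (_ : Unit) => O.rule a o q := by
  match o with
  | 0 => exact h.code.tst
  | 1 => exact h.code.cor
  | 2 => exact h.suc
  | 3 => exact h.pre

theorem lev_ok {k : Kit c g} {O : OFam α c} {δ hd hs ε e η' η K β : ℝ}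
    (hk : k.Ok O.F δ hd hs ε e η') (h0 : 0 < η') (h1 : η' ≤ e) (h2 : e ≤ ε) (h3 : η ≤ η')
    (hβ : Fintype.card (LReg k.RP.T k.RA.T) * (η / η') * (1 + 4 * (c * |K|)) ≤ β) {a : α}
    (hbal : (O.sys a).Bal K) {x : Top k O a × (LReg k.RP.T k.RA.T ⊕ Unit) → ℝ} (hx : Unit01 x)
    (hok : (levMod k O a).Ok η x) :
    ∃ Gd Bk, LevOk (k.code (un O a)) (O.rule a) hs ε β (ext x ()) (reg x (Sum.inl k.rf))
      (fun o => reg x (Sum.inr (o, some k.ro))) Gd Bk := by
  classical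
  let B0 : O.Q.T a → Prop := fun q => ∃ r, η' < frac fun z =>
    ¬ (levMod k O a (q, z) r).Sat η x (x ((q, z), Sum.inl r))
  have hB0 : frac B0 ≤ Fintype.card (LReg k.RP.T k.RA.T) * (η / η') :=
    frac_broken h0 hok
  have pur : ∀ q, ¬ B0 q → PurOk (fun u => ∃ σ, u = k.code (un O a) σ) hs e (row (ext x ()) q)
      (fun f => row (reg x (Sum.inl (k.rp f))) q) (row (reg x (Sum.inl k.rf)) q) := fun q hq =>
    hk.pur (un O a) (fun z => x (phiP _ q z)) (fun _ => hx _)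
      (ok_site (ι := Sum.inl) (fun _ _ => rfl) (fun _ _ => rfl) h3 fun r =>
        not_lt.1 fun h => hq ⟨r, h⟩)
  refine ⟨fun q σ => ∀ f, pd (row (reg x (Sum.inl (k.rp f))) q) (k.code (un O a) σ) ≤ e,
    fun q => B0 q ∨ ∃ o j, B0 (O.rd a o q j), ?_, fun q hq σ h => ?_, fun q hq => ?_,
    fun q hq o Z B τ hZ hτ => ?_⟩
  · have h4 := frac_exists (p := fun o q => ∃ j, B0 (O.rd a o q j)) fun o =>
      frac_reads (ruleBal hbal o) B0
    rw [Fintype.card_fin] at h4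
    have h5 := mul_le_mul_of_nonneg_right hB0 (by positivity : 0 ≤ 1 + 4 * (c * |K|))
    refine (frac_or _ _).trans ?_
    push_cast at h4
    linarith
  · obtain ⟨h4, h5⟩ := (pur q fun h => hq (Or.inl h)).near _ ⟨σ, rfl⟩ h
    exact ⟨h4, h5.trans h2⟩
  · rcases (pur q fun h => hq (Or.inl h)).flag with ⟨_, ⟨σ, rfl⟩, h⟩ | h
    · exact Or.inl ⟨σ, h⟩
    · exact Or.inr (h.trans h2)
  choose bad hbad using fun j => (pur (O.rd a o q j) fun h => hq (Or.inr ⟨o, j, h⟩)).most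
  have hq0 : ∀ r, _ := fun r => not_lt.1 fun h => hq (Or.inl ⟨r, h⟩)
  refine hk.app (un O a) (fun z => x (phiA k.rp o q (O.rd a o q) z)) (fun _ => hx _)
    (ok_site (ι := fun r => Sum.inr (o, some r)) (fun _ _ => rfl) (fun _ _ => rfl) h3 hq0) τ bad
    fun f hf => ?_
  have h4 : ∀ q', ∃ σ, (¬ B q' → σ = Z q') ∧ ((∃ j, q' = O.rd a o q j) →
      pd (row (reg x (Sum.inl (k.rp f))) q') (k.code (un O a) σ) ≤ e) := by
    intro q'
    by_cases hb : B q'
    · by_cases hj : ∃ j, q' = O.rd a o q j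
      · obtain ⟨j, rfl⟩ := hj
        obtain ⟨_, ⟨σ, rfl⟩, h⟩ := hbad j f (hf j)
        exact ⟨σ, fun h => absurd hb h, fun _ => h⟩
      · exact ⟨Z q', fun _ => rfl, fun h => absurd h hj⟩
    · exact ⟨Z q', fun _ => rfl, fun _ => hZ q' hb f⟩
  choose W hW1 hW2 using h4
  refine ⟨Fin.cons (O.cst a o q) fun j => W (O.rd a o q j), hτ W hW1, fun j => ?_⟩
  refine (tvd_le_pd _ _).trans ?_
  induction j using Fin.cases with
  | zero =>
    exact ((frac_mono fun z hz hs => hz (hs _ fun _ _ => rfl)).trans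
      (hq0 (Sum.inr (o, none)))).trans h1
  | succ j => exact hW2 _ ⟨j, rfl⟩

end Vale.Agent.P330.Comp
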