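import Vale.Agent.P330.Comp.Side
import Vale.Agent.P330.Comp.Kit

/-!
P330, T9: the composition of the outer system with the inner objects.
-/

namespace Vale.Agent.P330

open Vale.Agent.Lib.PolyTime hiding C P
open Vale.Agent.Lib.Dep

namespace Comp

theorem exists_par {M δ hs θO hO hd h1 : ℝ} (hM : 0 ≤ M) (δ0 : 0 < δ) (δ1 : δ ≤ 1) (hs0 : 0 < hs)
    (θ0 : 0 < θO) (hO0 : 0 < hO) (hd0 : 0 < hd) (h10 : 0 < h1) :
    ∃ h0 θ : ℝ, 0 < h0 ∧ h0 ≤ h1 ∧ h0 ≤ hd * hO ∧ 0 < θ ∧ ∀ h2 : ℝ, 0 < h2 →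
      ∃ (s : ℝ) (t : ℕ), 0 < s ∧ Par M δ hs θO hO h0 θ h2 s t := by
  obtain ⟨h0, a0, a1, a2, a3⟩ : ∃ h0 : ℝ, 0 < h0 ∧ h0 ≤ h1 ∧ h0 ≤ hd * hO ∧ h0 ≤ hs * hO / 2 :=
    ⟨min h1 (min (hd * hO) (hs * hO / 2)), by positivity, min_le_left _ _,
      (min_le_right _ _).trans (min_le_left _ _), (min_le_right _ _).trans (min_le_right _ _)⟩
  obtain ⟨θ, b0, b1, b2, b3⟩ : ∃ θ : ℝ, 0 < θ ∧ θ ≤ h0 / 2 ∧ θ ≤ δ * θO / (5 * (1 + M)) ∧
      θ ≤ δ * hO / 10 :=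
    ⟨min (h0 / 2) (min (δ * θO / (5 * (1 + M))) (δ * hO / 10)), by positivity, min_le_left _ _,
      (min_le_right _ _).trans (min_le_left _ _), (min_le_right _ _).trans (min_le_right _ _)⟩
  refine ⟨h0, θ, a0, a1, a2, b0, fun h2 h20 => ?_⟩
  obtain ⟨s, c0, c1⟩ : ∃ s : ℝ, 0 < s ∧
      s ≤ min (min θ (min hs (δ / 2))) (min (h2 / (10 + 6 * M)) (h0 / 2 / (6 + 5 * M))) :=
    ⟨_, by positivity, le_rfl⟩
  simp only [le_min_iff] at c1
  obtain ⟨⟨c1, c2, c3⟩, c4, c5⟩ := c1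
  obtain ⟨t, ht⟩ := pow_unbounded_of_one_lt (hO / s) (by norm_num : (1 : ℝ) < 2)
  rw [le_div_iff₀ (by positivity)] at b2 c4 c5
  rw [div_lt_iff₀ c0] at ht
  refine ⟨s, t, c0, hO0, hs0, δ0, δ1, a3, b1, by linarith, by linarith, c0.le, c1, c2, c3,
    by linarith, by linarith, ?_⟩
  rw [div_le_iff₀ (by positivity)]
  linarith

theorem isPT_sys {α : Type} [Enc α] {c : ℕ} {O : OFam α c} (hO : O.IsPT) :
    LCode.IsPT fun a => (O.sys a).toLCode := by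
  have h1 : ∀ o j, DPT fun x : Σ a, O.Q.T a × Unit => (O.rule x.1 o x.2.1).rd j := fun o j =>
    DPT.pair (DPT.const _) (DPT.fn (fun a q => O.rd a o q j) (hO.rd o j) DPT.id.sfst DPT.ssnd.fst)
  have h2 : ∀ o, DPT fun x : Σ a, (O.Q.T a × Unit) × (Fin c → Sym (O.ℓ a)) =>
      (O.rule x.1 o x.2.1.1).fn x.2.2 := fun o =>
    dpt_appF hO.F (hO.len.comp DPT.id.sfst) (pbd_comp hO.lenb DPT.id.sfst) (dpt_finCons
      (DPT.fn (fun a q => O.cst a o q) (hO.cst o) DPT.id.sfst DPT.ssnd.fst.fst) DPT.ssnd.snd)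
  exact ⟨⟨h1 0, DPT.decide (DPr.eq (h2 0) ((dpt_zsym hO.len hO.lenb).comp DPT.id.sfst))⟩,
    h1 1, h2 1⟩

theorem pl_card (V : TF Un) {ℓ : EOL → ℕ} (h : PL ℓ) : PL fun I => Fintype.card (V.T ⟨ℓ I⟩) := by
  obtain ⟨d, hd⟩ := V.pbd_card
  exact ((h.add (PL.const 2)).pow d).mono fun I => (hd _).trans (by rw [esize_un]; rfl)

theorem cat_inj {Q C T : Type} [Fintype C] {code : T → C → Bool} {δ : ℝ} (h0 : 0 < δ)
    (hd : ∀ σ σ', σ ≠ σ' → δ ≤ frac fun z => code σ z ≠ code σ' z) {Z Z' : Q → T}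
    (h : cat code Z = cat code Z') : Z = Z' := by
  funext q
  by_contra hn
  exact absurd ((hd _ _ hn).trans ((Glue.frac_mono fun z hz => hz (congrFun h (q, z))).trans
    Glue.frac_false.le)) h0.not_ge

/-- the registers: Brouwer block and the modules of its two registers -/
abbrev TReg (n : ℕ) (R : Type) : Type := Fin (n + 2) ⊕ Bool × R

/-- the external registers of the Brouwer block -/
def kapT (n : ℕ) {R : Type} (rk rs rp rt : R) : Fin 6 → TReg n R ⊕ Fin 0 :=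
  ![Sum.inl (Sum.inr (false, rk)), Sum.inl (Sum.inr (false, rs)), Sum.inl (Sum.inr (false, rt)),
    Sum.inl (Sum.inr (true, rk)), Sum.inl (Sum.inr (true, rp)), Sum.inl (Sum.inr (true, rt))]

/-- the whole module -/
def totMod {C R : Type} {n : ℕ} (rk rs rp rt : R) (mB : Mod C (Fin (n + 2)) (Fin 6))
    (m : Mod C R Unit) : Mod C (TReg n R) (Fin 0) :=
  fun c r => match r with
    | Sum.inl r => Glue.ren Sum.inl (kapT n rk rs rp rt) mB c r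
    | Sum.inr (b, r) =>
      Glue.ren (fun r => Sum.inr (b, r)) (fun _ => Sum.inl (Sum.inl (bif b then 1 else 0))) m c r

theorem modPT_tot {α : Type} [Enc α] {C : α → Type} [∀ a, Enc (C a)] {R : Type} [Enc R] [Finite R]
    [EncInj R] {n : ℕ} (rk rs rp rt : R) {mB : ∀ a, Mod (C a) (Fin (n + 2)) (Fin 6)}
    {m : ∀ a, Mod (C a) R Unit} (hB : ModPT mB) (hm : ModPT m) :
    ModPT fun a => totMod rk rs rp rt (mB a) (m a) := by
  rintro (r | ⟨b, r⟩)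
  · exact Glue.gatePT_ren _ _ hB r
  · exact Glue.gatePT_ren _ _ hm r

end Comp

open Vale.Agent.P330.Comp in
theorem compAsm : CompAsm := by
  intro hT hS hB hC hG hE hV hI ⟨c, O, K, Δ, θO, hO, dO, ho⟩
  obtain ⟨δ, hd, hs, δ0, δ1, hd0, hs0, hk⟩ := exists_kit hS hC hG hE hV hI c ho.pt.F
  have hM : (0 : ℝ) ≤ c * |K| := by positivity
  have hO0 := ho.posh
  obtain ⟨h1, h10, hB⟩ := hB (Δ * δ) (mul_pos ho.posΔ δ0)
  obtain ⟨h0, θ, h00, h01, h02, θ0, hp⟩ := exists_par hM δ0 δ1 hs0 ho.posθ hO0 hd0 h10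
  obtain ⟨h2, ηB, T, h20, ηB0, hB⟩ :=
    hB h0 θ (1 + (1 + c * |K|) / hs + 2 / (hs * hO)) h00 h01 θ0 (by positivity)
  obtain ⟨s, t, s0, p⟩ := hp h2 h20
  obtain ⟨k, e, η', η'0, e1, e2, hk⟩ := hk s T.g s0
  have hR1 : (0 : ℝ) < Fintype.card (LReg k.RP.T k.RA.T) := by exact_mod_cast Fintype.card_pos
  obtain ⟨η, η0, η1, η2, η3, η4⟩ : ∃ η : ℝ, 0 < η ∧ η ≤ η' ∧ η ≤ ηB ∧ η < 1 / 10 ∧
      Fintype.card (LReg k.RP.T k.RA.T) * (η / η') * (1 + 4 * (c * |K|)) ≤ s := by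
    obtain ⟨η, c0, c1⟩ : ∃ η : ℝ, 0 < η ∧ η ≤ min (min η' ηB) (min (1 / 20)
        (s * η' / (Fintype.card (LReg k.RP.T k.RA.T) * (1 + 4 * (c * |K|))))) :=
      ⟨_, by positivity, le_rfl⟩
    simp only [le_min_iff] at c1
    refine ⟨η, c0, c1.1.1, c1.1.2, by linarith [c1.2.1], ?_⟩
    have c2 := c1.2.2
    rw [le_div_iff₀ (by positivity)] at c2
    rw [mul_right_comm, ← mul_div_assoc, div_le_iff₀ η'0]
    linarith
  obtain ⟨Ks, -, hS⟩ := hS ηB ηB0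
  let C : TF EOL := O.Q.prod (k.C.comap (un O) (dpt_un ho.pt))
  obtain ⟨nb, hnb, hnbS⟩ := hS EOL C
  obtain ⟨ex, hex, hE⟩ := hE 0 c EOL O.Q (TF.const EOL CT.unit) (fun I => Sym (O.ℓ I))
    (fun I => (O.sys I).toLCode) (isPT_sys ho.pt)
    ⟨fun I => 3 * O.ℓ I, (PBd.const 3).mul ho.pt.lenb, fun _ y => (esize_sym y).le⟩
  let R : CT := (CT.finS (T.ρ + 1)).sum (CT.bool.prod
    (((CT.finS t).prod (k.RP.sum ((CT.finS 3).prod k.RA.option))).sum CT.unit))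
  let V : TF EOL := C.prod (TF.const EOL R)
  let m : ∀ I, Mod (C.T I) R.T (Fin 0) := fun I =>
    totMod (Sum.inl (Fin.last t, rres k 1)) (Sum.inl (Fin.last t, rres k 2))
      (Sum.inl (Fin.last t, rres k 3)) (Sum.inr ())
      (T.mod (nb I) (fun z => k.th (un O I) z.2) (cat (k.code (un O I)) (O.st I))) (side k O t I)
  have hm : ModPT m :=
    modPT_tot _ _ _ _ (Glue.modPT_bt T (th := fun I z => k.th (un O I) z.2)
      (st := fun I => cat (k.code (un O I)) (O.st I)) hnb (hk.ptTh.comp (dpt_inner ho.pt))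
      (dpt_code hk ho.pt ho.pt.st)) (modPT_side hk ho.pt t (dpt_zsym ho.pt.len ho.pt.lenb))
  let cand : R.T → ∀ I, Vec (V.T I) Bool → List Bool := fun r I w =>
    dO I (ex I fun q => k.dc (un O I) fun z => w ((q, z), r))
  have hc : ∀ r, DPT fun x : Σ I, Vec (V.T I) Bool => cand r x.1 x.2 := by
    intro r
    have h1 : DPT fun x : Σ I, Vec (V.T I) Bool => x.1 := DPT.id.sfst
    have h2 : DPT fun y : Σ x : (Σ I, Vec (V.T I) Bool), O.Q.T x.1 => y.1.1 := h1.comp DPT.id.sfst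
    have h3 : DPT (β := fun y : Σ x : (Σ I, Vec (V.T I) Bool), O.Q.T x.1 =>
        Vec (k.C.T (un O y.1.1)) Bool) fun y z => y.1.2 ((y.2, z), r) :=
      PolyA.dpt_vec k.C ((dpt_un ho.pt).comp h2) (PolyA.dpt_app V (h2.comp DPT.id.sfst)
        (DPT.ssnd.comp DPT.id.sfst.sfst)
        (((DPT.ssnd.comp DPT.id.sfst).pair DPT.ssnd).pair (DPT.const r)))
    exact DPT.fn dO ho.ptDec h1 (DPT.fn ex hex h1
      (PolyA.dpt_vec O.Q h1 (DPT.fn k.dc hk.ptDc ((dpt_un ho.pt).comp h2) h3)))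
  have hR0 : (0 : ℝ) < Fintype.card R.T := by exact_mod_cast Fintype.card_pos
  classical
  refine (hT V (fun I v => (m I v.1 v.2).map PolyA.flat)
    (fun I w => if I.Solution (cand (Sum.inl 0) I w) then cand (Sum.inl 0) I w
      else cand (Sum.inl 1) I w)
    (η / Fintype.card R.T) ⟨by positivity, PolyA.gatePT_flat R hm,
      DPT.ite (PolyA.dpr_solution DPT.id.sfst (hc _)) (hc _) (hc _), fun I x hx hb => ?_⟩).2 ?_
  swap
  · refine ((ho.card.mul (pl_card k.C ho.len)).mul (PL.const (Fintype.card R.T))).mono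
      fun I => le_of_eq ?_
    exact (Fintype.card_prod _ _).trans (congrArg (· * _) (Fintype.card_prod _ _))
  have key : ∀ r Z, (O.sys I).End noInp Z →
      tvd (fun z => x (z, r)) (cat (k.code (un O I)) Z) ≤ h0 → I.Solution (cand r I (rnd x)) := by
    intro r Z h3 h4
    have h5 := frac_rows (R := fun z => 2 / 5 < |x (z, r) - bv (cat (k.code (un O I)) Z z)|) hd0
      (h4.trans h02)
    rw [mul_div_cancel_left₀ _ hd0.ne'] at h5
    have h6 := hE I noInp Δ θO hO Z (fun q => k.dc (un O I) fun z => rnd x ((q, z), r)) (ho.good I)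
      h3.1 ((Glue.frac_mono fun q hq => not_le.1 fun h =>
        hq (hk.dec (un O I) (Z q) (fun z => x ((q, z), r)) h)).trans h5)
    have h7 : cand r I (rnd x) = dO I Z := congrArg (dO I) h6
    rw [h7]
    exact ho.ends I Z h3
  have hok := PolyA.ok_flat (m I) η0 x hb
  have hx' : Unit01 fun p : C.T I × (R.T ⊕ Fin 0) => x (PolyA.flat p) := fun _ => hx _
  have sd := fun b : Bool => side_ok hk p η'0 e1 e2 η1 η3 η4 (ho.bal I) (ho.good I)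
    (Glue.unit01_pull hx') (Glue.ok_pull (ι := fun r => Sum.inr (b, r))
      (κ := fun _ => Sum.inl (Sum.inl (bif b then 1 else 0))) (fun _ _ => rfl) le_rfl hok)
  have inj := fun Z Z' : O.Q.T I → Sym (O.ℓ I) =>
    cat_inj (Z := Z) (Z' := Z') δ0 (hk.dist (un O I))
  have hst := ho.start I
  have fin := hB (C.T I) Ks (nb I) (fun z => k.th (un O I) z.2) (cat (k.code (un O I)) (O.st I))
    (fun u => ∃ Z, (O.sys I).Valid noInp Z ∧ u = cat (k.code (un O I)) Z)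
    (fun u v => ∃ Z Z', (O.sys I).Step noInp Z Z' ∧ u = cat (k.code (un O I)) Z ∧
      v = cat (k.code (un O I)) Z')
    _ (hnbS I).1 (fun j => (Glue.frac_snd fun z => k.th (un O I) z = j).trans (hk.grid _ j))
    ?_ ?_ ?_ ?_ ⟨_, hst.1, rfl⟩ ?_ ?_ (Glue.unit01_pull hx')
    (Glue.ok_pull (ι := Sum.inl) (κ := kapT T.ρ (Sum.inl (Fin.last t, rres k 1))
      (Sum.inl (Fin.last t, rres k 2)) (Sum.inl (Fin.last t, rres k 3)) (Sum.inr ()))
      (fun _ _ => rfl) η2 hok) (sd false).1 (sd true).1 ?_ ?_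
  · rcases fin with ⟨_, ⟨Z, hZ, rfl⟩, h3, h4⟩ | ⟨_, ⟨Z, hZ, rfl⟩, h3, h4, h5⟩
    · have h5 := key (Sum.inl 0) Z ⟨hZ, Or.inl fun ⟨Z', h⟩ => h4 ⟨_, Z, Z', h, rfl, rfl⟩⟩ h3
      rwa [if_pos h5]
    · have h6 := key (Sum.inl 1) Z ⟨hZ, Or.inr ⟨fun h => h3 (by rw [h]; rfl),
        fun ⟨Z', h⟩ => h5 ⟨_, Z', Z, h, rfl, rfl⟩⟩⟩ h4
      split_ifs with h7
      exacts [h7, h6]
  · rintro _ _ ⟨Z, hZ, rfl⟩ ⟨Z', hZ', rfl⟩ hne j
    refine le_trans ?_ (frac_prod_ge (P := fun q => Z q ≠ Z' q) (R := fun z : Top k O I =>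
      k.th (un O I) z.2 = j ∧ cat (k.code (un O I)) Z z ≠ cat (k.code (un O I)) Z' z)
      fun q hq => hk.distG (un O I) _ _ hq j)
    rw [mul_div_assoc]
    exact mul_le_mul_of_nonneg_right ((ho.good I).dist Z Z' hZ hZ' fun h => hne (by rw [h]))
      (by positivity)
  · rintro _ _ ⟨Z, Z', h, rfl, rfl⟩
    exact ⟨⟨Z, h.1, rfl⟩, Z', h.2.1, rfl⟩
  · rintro _ _ _ ⟨Z, Z', h, rfl, rfl⟩ ⟨Z2, Z2', h', he, rfl⟩
    obtain rfl := inj _ _ he
    exact congrArg _ (funext fun q => (h.2.2.1 q ()).symm.trans (h'.2.2.1 q ()))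
  · rintro _ _ _ ⟨Z, Z', h, rfl, rfl⟩ ⟨Z2, Z2', h', rfl, he⟩
    obtain rfl := inj _ _ he
    exact congrArg _ (funext fun q => (h.2.2.2 q ()).symm.trans (h'.2.2.2 q ()))
  · obtain ⟨Z, h⟩ := hst.2.1
    exact ⟨_, _, Z, h, rfl, rfl⟩
  · rintro ⟨_, Z, Z', h, rfl, he⟩
    obtain rfl := inj _ _ he
    exact hst.2.2 ⟨Z, h⟩
  · rintro _ _ ⟨Z, Z', h, rfl, rfl⟩ hw
    exact (sd false).2 Z h.1 hw 2 Z' fun q => h.2.2.1 q ()
  · rintro _ _ ⟨Z, Z', h, rfl, rfl⟩ hw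
    exact (sd true).2 Z' h.2.1 hw 3 Z fun q => h.2.2.2 q ()

end Vale.Agent.P330
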