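import Vale.Agent.P330.Comp.Frac

/-!
P330, T9: purification of a word with spread thresholds.
-/

namespace Vale.Agent.P330.Comp

open Vale.Agent.Lib.PolyTime hiding C P
open Vale.Agent.Lib.Dep
open Glue

/-- The versions `p f` of the word `w` and the flag `fl`. -/
structure PurOk {C : Type} [Fintype C] (Valid : (C → Bool) → Prop) {n : ℕ} (hs ε : ℝ) (w : C → ℝ)
    (p : Fin n → C → ℝ) (fl : C → ℝ) : Prop where
  near : ∀ u, Valid u → tvd w u ≤ hs → (∀ f, pd (p f) u ≤ ε) ∧ pd fl (fun _ => false) ≤ ε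
  flag : (∃ u, Valid u ∧ ∀ f, pd (p f) u ≤ ε) ∨ pd fl (fun _ => true) ≤ ε
  most : ∃ f0, ∀ f : Fin n, f.1 ≠ f0 → ∃ u, Valid u ∧ pd (p f) u ≤ ε

/-- The gate compares the mean of the register `rt` over the sample with `τ`; the result is `b`
or `d` and the rounded value of the register `rk`. -/
noncomputable def thr {C V : Type} {K : ℕ} (nb : Fin K → C) (c : C) (rk rt : V) (τ : ℝ)
    (b d : Bool) : Gate (C × V) :=
  Gate.mk' (D := Option (Fin K)) (fun o => o.elim (c, rk) fun i => (nb i, rt))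
    fun y => if τ < mean (fun i => y (some i)) then b else d && decide (1 / 2 < y none)

section Thr

variable {C V : Type} [Fintype C] {K : ℕ} {nb : C → Fin K → C} {rk rt ro : V} {τ η s e μ : ℝ}
  {b : C → Bool} {d : Bool} {x : C × V → ℝ}

theorem thr_hi (hS : Sampler s nb) (hx : Unit01 x) (hη : 0 ≤ η)
    (hg : frac (fun c => ¬ (thr (nb c) c rk rt τ (b c) d).Sat η x (x (c, ro))) ≤ η)
    (hμ : (mean fun c => x (c, rt)) = μ) (h : τ + s + η < μ) :
    pd (fun c => x (c, ro)) b ≤ η + s := by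
  refine (frac_le_add ?_).trans (add_le_add hg (hS (fun c => x (c, rt)) fun c => hx _))
  intro c h1 h2
  refine not_not.2 (sat_mk' (not_not.1 h1) _ fun y hy => if_pos ?_)
  have h3 := abs_le.1 (abs_mean_sub hη fun i => hy (some i))
  have h4 := abs_le.1 (not_lt.1 h2)
  simp only [Option.elim] at h3
  linarith [h3.1, h4.1]

theorem thr_lo (hS : Sampler s nb) (hx : Unit01 x) (hη : 0 ≤ η) (hη' : η < 1 / 10)
    (hg : frac (fun c => ¬ (thr (nb c) c rk rt τ (b c) d).Sat η x (x (c, ro))) ≤ η)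
    (hμ : (mean fun c => x (c, rt)) = μ) (h : μ + s + η ≤ τ) {u : C → Bool}
    (hu : pd (fun c => x (c, rk)) u ≤ e) :
    pd (fun c => x (c, ro)) (fun c => d && u c) ≤ η + s + e := by
  refine (frac_le_add3 ?_).trans
    (add_le_add (add_le_add hg (hS (fun c => x (c, rt)) fun c => hx _)) hu)
  intro c h1 h2 h5
  refine not_not.2 (sat_mk' (not_not.1 h1) _ fun y hy => (if_neg ?_).trans ?_)
  · have h3 := abs_le.1 (abs_mean_sub hη fun i => hy (some i))
    have h4 := abs_le.1 (not_lt.1 h2)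
    simp only [Option.elim] at h3
    linarith [h3.2, h4.2]
  · rw [round_eq' hη' h5 (hy none)]

end Thr

/-- the gate which rounds the value of a node -/
noncomputable def rndG {V : Type} (v : V) : Gate V :=
  Gate.mk' (D := Unit) (fun _ => v) fun y => decide (1 / 2 < y ())

theorem gatePT_rndG {α : Type} [Enc α] {V : α → Type} [∀ a, Enc (V a)] {v : ∀ a, V a}
    (hv : DPT v) : GatePT fun a => rndG (v a) :=
  gatePT_mk' (fun _ => hv) (finSel_const _)

/-- the registers: rounded word, code, versions and flag -/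
abbrev PReg (R : Type) (n : ℕ) : Type := Unit ⊕ R ⊕ Option (Fin n)

/-- the module of the purification -/
noncomputable def purMod {C R : Type} {n K : ℕ} (nb : C → Fin K → C) (z : C → Bool) (γ : ℝ)
    (rk rt : R) (m : Mod C R (Option (Fin 0))) : Mod C (PReg R n) Unit :=
  fun c r => match r with
    | Sum.inl _ => rndG (c, Sum.inr ())
    | Sum.inr (Sum.inl r) =>
      ren (fun r => Sum.inr (Sum.inl r)) (fun _ => Sum.inl (Sum.inl ())) m c r
    | Sum.inr (Sum.inr none) => thr (nb c) c (Sum.inl (Sum.inr (Sum.inl rk)))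
        (Sum.inl (Sum.inr (Sum.inl rt))) (γ / 2) true false
    | Sum.inr (Sum.inr (some f)) => thr (nb c) c (Sum.inl (Sum.inr (Sum.inl rk)))
        (Sum.inl (Sum.inr (Sum.inl rt))) (γ * (f + 1)) (z c) true

theorem gatePT_thr {α : Type} [Enc α] {C : α → Type} [∀ a, Enc (C a)] {V : Type} [Enc V] {K : ℕ}
    {nb : ∀ a, Fin K → C a} {c : ∀ a, C a} (rk rt : V) (τ : ℝ) {b : α → Bool} (d : Bool)
    (hnb : ∀ i, DPT fun a => nb a i) (hc : DPT c) (hb : DPT b) :
    GatePT fun a => thr (nb a) (c a) rk rt τ (b a) d := by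
  refine gatePT_mk' (fun o => ?_) ?_
  · rcases o with _ | i
    · exact DPT.pair hc (DPT.const _)
    · exact DPT.pair (hnb i) (DPT.const _)
  · exact finSel_of_dpt (γ := Bool) (fun q (y : Option (Fin K) → ℝ) =>
      if τ < mean (fun i => y (some i)) then q else d && decide (1 / 2 < y none)) hb

/-- The statement on the purification. -/
def PurStmt : Prop :=
  ∀ (A : CT) (k n : ℕ) (K θ h : ℝ), 0 < θ → 0 < h → ∃ hs : ℝ, 0 < hs ∧ ∀ (ε : ℝ) (G : CT), 0 < ε →
    ∃ (η : ℝ) (R : CT) (rp : Fin n → R.T) (rf : R.T), 0 < η ∧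
      ∀ (α : Type) [Enc α] (P S : TF α) (E : ∀ a, LCode 0 k (P.T a) (S.T a) A.T)
        (z : ∀ a, P.T a → A.T), LCode.IsPT E → DPT (fun x : Σ a, P.T a => z x.1 x.2) →
        ∃ m : ∀ a, Mod (Cell (P.T a) A.T (S.T a) G.T) R.T Unit, ModPT m ∧
          ∀ a (Δ : ℝ), (E a).Bal K → (E a).Good noInp Δ θ h → (E a).Valid noInp (z a) →
            ∀ x, Unit01 x → (m a).Ok η x →
              PurOk (fun u => ∃ W, (E a).Valid noInp W ∧ u = encb (S.T a) G.T W) hs ε (ext x ())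
                (fun f => reg x (rp f)) (reg x rf)

theorem dpt_encb {α : Type} [Enc α] {P S : TF α} {A G : CT} {z : ∀ a, P.T a → A.T}
    (hz : DPT fun x : Σ a, P.T a => z x.1 x.2) :
    DPT fun x : Σ a, Cell (P.T a) A.T (S.T a) G.T => encb (S.T x.1) G.T (z x.1) x.2 := by
  have h1 : DPT fun x : Σ a, Cell (P.T a) A.T (S.T a) G.T => (⟨x.1, x.2.1⟩ : Σ a, P.T a) :=
    DPT.smk (DPT.sfst DPT.id) (DPT.fst DPT.ssnd)
  exact DPT.decide (DPr.eq (hz.comp h1) (DPT.fst (DPT.snd DPT.ssnd)))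

theorem purStmt (hS : SampStmt) (hC : PhysCodeStmt) : PurStmt := by
  intro A k n K θ h hθ hh
  obtain ⟨θ', Cc, h1, hθ', hCc, hh1, hC⟩ := hC A 0 k K θ h hθ hh
  obtain ⟨γ, hγ, hγ1, hγ2⟩ : ∃ γ : ℝ, 0 < γ ∧ γ * (n + 1) ≤ θ' ∧ γ * (n + 1) ≤ h1 / 4 := by
    refine ⟨min θ' (h1 / 4) / (n + 1), by positivity, ?_, ?_⟩ <;>
      rw [div_mul_cancel₀ _ (by positivity)]
    exacts [min_le_left _ _, min_le_right _ _]
  obtain ⟨hs, hs0, hs1, hs2⟩ : ∃ hs : ℝ, 0 < hs ∧ hs ≤ h1 / 2 ∧ Cc * hs ≤ γ / 16 := by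
    refine ⟨min (h1 / 2) (γ / 16 / (Cc + 1)), by positivity, min_le_left _ _, ?_⟩
    refine (mul_le_mul_of_nonneg_left (min_le_right _ _) hCc).trans ?_
    rw [← mul_div_assoc, div_le_iff₀ (by positivity)]
    nlinarith
  refine ⟨hs, hs0, fun ε G hε => ?_⟩
  obtain ⟨s, s0, s1, s2, s3⟩ : ∃ s : ℝ, 0 < s ∧ s ≤ ε / 3 ∧ s ≤ γ / 16 ∧ s ≤ h1 / 2 :=
    ⟨min (ε / 3) (min (γ / 16) (h1 / 2)), by positivity, min_le_left _ _,
      (min_le_right _ _).trans (min_le_left _ _), (min_le_right _ _).trans (min_le_right _ _)⟩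
  obtain ⟨ηC, R, rk, rt, hηC, hC⟩ := hC s G s0
  obtain ⟨Ks, -, hS⟩ := hS s s0
  obtain ⟨η, η0, η1, η2, η3, η4⟩ : ∃ η : ℝ, 0 < η ∧ η ≤ s ∧ η ≤ hs ∧ η ≤ ηC ∧ η < 1 / 10 :=
    ⟨min (min s hs) (min ηC (1 / 20)), by positivity, (min_le_left _ _).trans (min_le_left _ _),
      (min_le_left _ _).trans (min_le_right _ _), (min_le_right _ _).trans (min_le_left _ _),
      ((min_le_right _ _).trans (min_le_right _ _)).trans_lt (by norm_num)⟩
  refine ⟨η, ⟨PReg R.T n⟩, fun f => Sum.inr (Sum.inr (some f)), Sum.inr (Sum.inr none), η0, ?_⟩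
  intro α _ P S E z hE hz
  obtain ⟨nb, hnb, hnbS⟩ := hS α (tfCell P A S G)
  obtain ⟨m, hm, hC⟩ := hC α P S E hE
  refine ⟨fun a => purMod (nb a) (encb (S.T a) G.T (z a)) γ rk rt (m a), ?_, ?_⟩
  · rintro (r | r | _ | f)
    · exact gatePT_rndG (DPT.pair DPT.ssnd (DPT.const _))
    · exact gatePT_ren _ _ hm r
    · exact gatePT_thr _ _ _ _ hnb DPT.ssnd (DPT.const _)
    · exact gatePT_thr _ _ _ _ hnb DPT.ssnd (dpt_encb hz)
  intro a Δ hbal hgood hz x hx hok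
  obtain ⟨sX, kX, tX⟩ := hC a noInp Δ hbal hgood _ (unit01_pull hx)
    (ok_pull (ι := fun r => Sum.inr (Sum.inl r)) (κ := fun _ => Sum.inl (Sum.inl ()))
      (fun _ _ => rfl) η3 hok) fun j => j.elim0
  have hS := (hnbS a).1
  have gF := hok (Sum.inr (Sum.inr none))
  have gP := fun f : Fin n => hok (Sum.inr (Sum.inr (some f)))
  have g1 := hok (Sum.inl ())
  rw [reg_pull] at sX tX
  obtain ⟨μ, hμ⟩ : ∃ μ, mean (reg x (Sum.inr (Sum.inl rt))) = μ := ⟨_, rfl⟩
  have hn : (0 : ℝ) ≤ n := by positivity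
  have lo : ∀ (f : Fin n) u, μ ≤ γ * (f + 1) - γ / 8 →
      pd (reg x (Sum.inr (Sum.inl rk))) u ≤ s → pd (reg x (Sum.inr (Sum.inr (some f)))) u ≤ ε :=
    fun f u h2 h3 => (thr_lo hS hx η0.le η4 (gP f) hμ (by linarith) h3).trans (by linarith)
  have ex : μ ≤ γ * (n + 1) → ∃ W, (E a).Valid noInp W ∧
      pd (reg x (Sum.inr (Sum.inl rk))) (encb (S.T a) G.T W) ≤ s := fun h2 => by
    obtain ⟨W, hW, h3⟩ := sX (by rw [hμ]; linarith)
    exact ⟨W, hW, kX W hW (h3.trans (by rw [hμ]; linarith))⟩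
  have fpos : ∀ f : Fin n, γ ≤ γ * (f + 1) := fun f =>
    le_mul_of_one_le_right hγ.le (by have : (0 : ℝ) ≤ f := by positivity
                                     linarith)
  refine ⟨?_, ?_, ?_⟩
  · rintro _ ⟨W, hW, rfl⟩ ht
    have h2 : pd (reg x (Sum.inl ())) (encb (S.T a) G.T W) ≤ η + hs := by
      refine (frac_le_add fun c h2 h3 => ?_).trans (add_le_add g1 ht)
      exact not_not.2 (sat_mk' (not_not.1 h2) _ fun y hy => round_eq η4 h3 (hy ()))
    have h3 := kX W hW (((tvd_le_pd _ _).trans h2).trans (by linarith))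
    have h4 : μ ≤ γ / 4 := by
      have h5 := (tX W hW).trans (add_le_add_left (mul_le_mul_of_nonneg_left h2 hCc) _)
      have h6 := mul_le_mul_of_nonneg_left η2 hCc
      rw [hμ] at h5
      linarith
    exact ⟨fun f => lo f _ (by linarith [fpos f]) h3,
      (thr_lo hS hx η0.le η4 gF hμ (by linarith) h3).trans (by linarith)⟩
  · by_cases h2 : μ ≤ 3 * γ / 4
    · obtain ⟨W, hW, h3⟩ := ex (by nlinarith)
      exact Or.inl ⟨_, ⟨W, hW, rfl⟩, fun f => lo f _ (by linarith [fpos f]) h3⟩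
    · exact Or.inr ((thr_hi hS hx η0.le gF hμ (by linarith)).trans (by linarith))
  · obtain ⟨f0, hf0⟩ : ∃ f0 : ℕ, ∀ f : Fin n, |μ - γ * (f + 1)| ≤ γ / 4 → f.1 = f0 := by
      by_cases h2 : ∃ f : Fin n, |μ - γ * (f + 1)| ≤ γ / 4
      · obtain ⟨f0, h2⟩ := h2
        refine ⟨f0, fun f h3 => ?_⟩
        rw [abs_le] at h2 h3
        have h4 : (f : ℝ) < f0 + 1 := lt_of_mul_lt_mul_left (by nlinarith [h2.2, h3.1]) hγ.le
        have h5 : (f0 : ℝ) < f + 1 := lt_of_mul_lt_mul_left (by nlinarith [h2.1, h3.2]) hγ.le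
        have h6 : f.1 < f0.1 + 1 := by exact_mod_cast h4
        have h7 : f0.1 < f.1 + 1 := by exact_mod_cast h5
        omega
      · exact ⟨0, fun f h3 => absurd ⟨f, h3⟩ h2⟩
    refine ⟨f0, fun f hf => ?_⟩
    rcases lt_abs.1 (not_le.1 fun h2 => hf (hf0 f h2)) with h2 | h2
    · exact ⟨_, ⟨_, hz, rfl⟩,
        (thr_hi hS hx η0.le (gP f) hμ (by linarith)).trans (by linarith)⟩
    · have h3 : (f : ℝ) ≤ n := by exact_mod_cast f.2.le
      obtain ⟨W, hW, h3⟩ := ex (by nlinarith)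
      exact ⟨_, ⟨W, hW, rfl⟩, lo f _ (by linarith) h3⟩

end Vale.Agent.P330.Comp
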