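import Vale.Agent.P330.Comp.Chain

/-!
P330, T9: the module for one register of the outer Brouwer block.
-/

namespace Vale.Agent.P330.Comp

open Vale.Agent.Lib.PolyTime hiding C P
open Vale.Agent.Lib.Dep
open Glue

/-- the registers: levels and test -/
abbrev SReg (R : Type) (t : ℕ) : Type := Fin (t + 1) × R ⊕ Unit

/-- the input of the level `i` -/
def kapS {R : Type} {t : ℕ} (r1 : R) (i : Fin (t + 1)) : Unit → SReg R t ⊕ Unit :=
  fun _ => Fin.cases (motive := fun _ => SReg R t ⊕ Unit) (Sum.inr ())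
    (fun i => Sum.inl (Sum.inl (i.castSucc, r1))) i

open Classical in
/-- the function of the test -/
noncomputable def tstF (b : Bool) (y : Fin 4 → ℝ) : Bool :=
  decide (1 / 2 < y 0 ∨ 1 / 5 < |y 1 - y 2| ∨ decide (1 / 2 < y 3) ≠ b)

/-- the registers read by the test -/
def tstR {R : Type} (t : ℕ) (rf r0 r1 : R) : Fin 4 → SReg R t ⊕ Unit :=
  ![Sum.inl (Sum.inl (0, rf)), Sum.inr (), Sum.inl (Sum.inl (Fin.last t, r1)),
    Sum.inl (Sum.inl (0, r0))]

/-- the chain of levels with the test -/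
noncomputable def sideMod {C R : Type} (t : ℕ) (rf r0 r1 : R) (z : C → Bool) (m : Mod C R Unit) :
    Mod C (SReg R t) Unit :=
  fun c r => match r with
    | Sum.inl (i, r) => ren (fun r => Sum.inl (i, r)) (kapS r1 i) m c r
    | Sum.inr _ => Gate.mk' (fun d => (c, tstR t rf r0 r1 d)) (tstF (z c))

theorem tstF_fire {b : Bool} {y v : Fin 4 → ℝ} {η : ℝ} (hη : η < 1 / 10)
    (hy : ∀ d, |y d - v d| ≤ η) (h : v 0 = 1 ∨ 2 / 5 < |v 1 - v 2| ∨ v 3 = bv (!b)) :
    tstF b y = true := by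
  refine decide_eq_true (h.imp (fun h => ?_) (Or.imp (fun h => ?_) fun h => ?_))
  · linarith [(abs_le.1 (hy 0)).1]
  · have h1 := abs_le.1 (hy 1)
    have h2 := abs_le.1 (hy 2)
    rw [lt_abs] at h ⊢
    exact h.imp (fun h => by linarith [h1.1, h2.2]) fun h => by linarith [h1.2, h2.1]
  · rw [round_eq' hη (not_not.2 h) (hy 3)]
    simp

theorem tstF_quiet {b : Bool} {y v : Fin 4 → ℝ} {η : ℝ} (hη : η < 1 / 10)
    (hy : ∀ d, |y d - v d| ≤ η) (h0 : v 0 = 0) (h1 : v 1 = v 2) (h3 : v 3 = bv b) :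
    tstF b y = false := by
  refine decide_eq_false (not_or.2 ⟨?_, not_or.2 ⟨?_, not_not.2 ?_⟩⟩)
  · linarith [(abs_le.1 (hy 0)).2]
  · have h1 := abs_le.1 (hy 1)
    have h2 := abs_le.1 (hy 2)
    rw [not_lt, abs_le]
    constructor <;> linarith [h1.1, h1.2, h2.1, h2.2]
  · exact round_eq' hη (not_not.2 h3) (hy 3)

variable {α : Type} [Enc α] {c g : ℕ}

/-- the result of the operation `o` -/
abbrev rres (k : Kit c g) (o : Fin 4) : LReg k.RP.T k.RA.T := Sum.inr (o, some k.ro)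

/-- the module for one register -/
noncomputable def side (k : Kit c g) (O : OFam α c) (t : ℕ) (a : α) :
    Mod (Top k O a) (SReg (LReg k.RP.T k.RA.T) t) Unit :=
  sideMod t (Sum.inl k.rf) (rres k 0) (rres k 1) (fun z => k.code (un O a) (zsym _) z.2)
    (levMod k O a)

theorem modPT_side {k : Kit c g} {O : OFam α c} {F : List (List Bool) → List Bool}
    {δ hd hs ε e η : ℝ} (hk : k.Ok F δ hd hs ε e η) (hO : O.IsPT) (t : ℕ)
    (hz : DPT fun a => zsym (O.ℓ a)) : ModPT (side k O t) := by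
  rintro (⟨i, r⟩ | r)
  · exact gatePT_ren _ _ (modPT_lev hk hO) r
  · exact gatePT_mk' (D := Fin 4)
      (F := fun x : Σ a, Top k O a => tstF (k.code (un O x.1) (zsym _) x.2.2))
      (fun _ => DPT.pair DPT.ssnd (DPT.const _))
      (finSel_of_dpt tstF (dpt_code (s := fun _ _ => zsym _) hk hO (hz.comp DPT.id.sfst)))

theorem side_ok {k : Kit c g} {O : OFam α c} {δ hd hs s e η' η K Δ θO hO h0 θ h2 : ℝ} {t : ℕ}
    (hk : k.Ok O.F δ hd hs s e η') (p : Par (c * |K|) δ hs θO hO h0 θ h2 s t) (h1 : 0 < η')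
    (h3 : η' ≤ e) (h4 : e ≤ s) (h5 : η ≤ η') (h6 : η < 1 / 10)
    (hβ : Fintype.card (LReg k.RP.T k.RA.T) * (η / η') * (1 + 4 * (c * |K|)) ≤ s) {a : α}
    (hb : (O.sys a).Bal K) (hg : (O.sys a).Good noInp Δ θO hO)
    {x : Top k O a × (SReg (LReg k.RP.T k.RA.T) t ⊕ Unit) → ℝ} (hx : Unit01 x)
    (hok : (side k O t a).Ok η x) :
    BHyp (fun u => ∃ Z, (O.sys a).Valid noInp Z ∧ u = cat (k.code (un O a)) Z) h0 θ
      (1 + (1 + c * |K|) / hs + 2 / (hs * hO)) h2 (ext x ())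
      (reg x (Sum.inl (Fin.last t, rres k 1))) (reg x (Sum.inr ())) ∧
    ∀ Z, (O.sys a).Valid noInp Z → tvd (ext x ()) (cat (k.code (un O a)) Z) ≤ h0 → ∀ o U,
      (∀ q, (O.rule a o q).eval noInp Z = U q) →
      tvd (reg x (Sum.inl (Fin.last t, rres k o))) (cat (k.code (un O a)) U) ≤ h2 := by
  choose Gd Bk hL using fun i : Fin (t + 1) => lev_ok hk h1 h3 h4 h5 hβ hb (unit01_pull hx)
    (ok_pull (ι := fun r => Sum.inl (i, r)) (κ := kapS (rres k 1) i) (fun _ _ => rfl) le_rfl hok)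
  have h : Chain O a (k.code (un O a)) hs s t _ _ _ Gd Bk (reg x (Sum.inr ())) _ :=
    ⟨hL, fun _ => rfl, fun _ => hx _, (hok (Sum.inr ())).trans (h5.trans (h3.trans h4)),
      fun z hz h => sat_mk' (not_not.1 hz) true fun y hy => tstF_fire h6 hy h,
      fun z hz h7 h8 h9 => sat_mk' (not_not.1 hz) false fun y hy => tstF_quiet h6 hy h7 h8 h9⟩
  exact ⟨h.bhyp p hb hg (hk.dist _), fun Z hZ hw o U hU => h.op p hb hg hZ hw o hU⟩

end Vale.Agent.P330.Comp
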